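import Vale.Agent.P202.Base

/-!
# P202: homology of a differential module that is a product of finite levels
-/

noncomputable section

namespace Vale.Agent.P202.Levels

open Finset

/-! ### One finite level -/

section Euler

variable {k : Type*} [Field k] {M : Type*} [AddCommGroup M] [Module k M] (D : Diff k M)
  (X : Submodule k M)

theorem subsingleton_of_eq_bot (j : ℤ) (h : X ⊓ D.deg j = ⊥) :
    Subsingleton (D.H X ⊥ j) := by
  have : Subsingleton (D.cycles X ⊥ j) := by
    refine ⟨fun a b => Subtype.ext ?_⟩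
    have ha : (a : M) ∈ X ⊓ D.deg j := a.2.1
    have hb : (b : M) ∈ X ⊓ D.deg j := b.2.1
    rw [h, Submodule.mem_bot] at ha hb
    rw [ha, hb]
  exact (Submodule.Quotient.mk_surjective _).subsingleton

/-- The Euler characteristic of a finite sub-pair is the alternating sum of dimensions. -/
theorem euler_sub (hX : D.Stable X) (L : ℕ)
    (hbound : ∀ j : ℤ, (j < 0 ∨ (L : ℤ) < j) → X ⊓ D.deg j = ⊥)
    (hfin : ∀ j, Module.Finite k ↥(X ⊓ D.deg j)) :
    ∑ i ∈ range (L + 1), (-1 : ℤ) ^ i * (D.betti X ⊥ (i : ℤ) : ℤ) =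
      ∑ i ∈ range (L + 1), (-1 : ℤ) ^ i * (Module.finrank k ↥(X ⊓ D.deg (i : ℤ)) : ℤ) := by
  set B : ℤ → ℕ := fun j => Module.finrank k ((X ⊓ D.deg (j + 1)).map D.d)
  have key : ∀ j : ℤ, (D.betti X ⊥ j : ℤ) =
      (Module.finrank k ↥(X ⊓ D.deg j) : ℤ) - B (j - 1) - B j := by
    intro j
    have := hfin j
    have hBsub : D.bdries X ⊥ j ≤ D.cycles X ⊥ j := by
      intro f hf
      simp only [Diff.bdries, bot_inf_eq, sup_bot_eq, Submodule.mem_map] at hf
      obtain ⟨w, ⟨hw1, hw⟩, rfl⟩ := hf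
      have h2 := D.d_deg (j + 1) w hw
      rw [add_sub_cancel_right] at h2
      exact ⟨⟨hX w hw1, h2⟩, show D.d (D.d w) ∈ (⊥ : Submodule k M) by rw [D.d_d]; exact zero_mem _⟩
    have : Module.Finite k (D.cycles X ⊥ j) :=
      Module.Finite.of_injective (Submodule.inclusion (inf_le_left : D.cycles X ⊥ j ≤ X ⊓ D.deg j))
        (Submodule.inclusion_injective _)
    have h1 := Submodule.finrank_quotient_add_finrank
      ((D.bdries X ⊥ j).comap (D.cycles X ⊥ j).subtype)
    rw [(Submodule.comapSubtypeEquivOfLe hBsub).finrank_eq] at h1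
    have hb : Module.finrank k (D.bdries X ⊥ j) = B j := by
      rw [show D.bdries X ⊥ j = (X ⊓ D.deg (j + 1)).map D.d by simp [Diff.bdries]]
    have h2 := LinearMap.finrank_range_add_finrank_ker (D.d.domRestrict (X ⊓ D.deg j))
    have hr : Module.finrank k (LinearMap.range (D.d.domRestrict (X ⊓ D.deg j))) = B (j - 1) := by
      show _ = Module.finrank k ((X ⊓ D.deg (j - 1 + 1)).map D.d)
      rw [sub_add_cancel, LinearMap.range_domRestrict]
    have hk : Module.finrank k (LinearMap.ker (D.d.domRestrict (X ⊓ D.deg j))) =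
        Module.finrank k (D.cycles X ⊥ j) := by
      let eq : LinearMap.ker (D.d.domRestrict (X ⊓ D.deg j)) ≃ₗ[k] D.cycles X ⊥ j :=
        { toFun := fun f => ⟨f.1.1, f.1.2, show D.d f.1.1 ∈ (⊥ : Submodule k M) from
            (Submodule.mem_bot k).2 f.2⟩
          invFun := fun f => ⟨⟨f.1, f.2.1⟩, (Submodule.mem_bot k).1 f.2.2⟩
          left_inv := fun f => rfl
          right_inv := fun f => rfl
          map_add' := fun f f' => rfl
          map_smul' := fun c f => rfl }
      exact eq.finrank_eq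
    have hbe : Module.finrank k (↥(D.cycles X ⊥ j) ⧸
        (D.bdries X ⊥ j).comap (D.cycles X ⊥ j).subtype) = D.betti X ⊥ j := rfl
    omega
  have hBneg : B (-1) = 0 := by
    show Module.finrank k ((X ⊓ D.deg (-1 + 1)).map D.d) = 0
    have : (X ⊓ D.deg (-1 + 1)).map D.d = ⊥ := by
      rw [eq_bot_iff]
      rintro _ ⟨w, ⟨hw1, hw⟩, rfl⟩
      have h := D.d_deg _ _ hw
      rw [← hbound (-1) (Or.inl (by norm_num))]
      exact ⟨hX w hw1, by simpa using h⟩
    rw [this, finrank_bot]
  have hBtop : B (L : ℤ) = 0 := by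
    show Module.finrank k ((X ⊓ D.deg ((L : ℤ) + 1)).map D.d) = 0
    rw [hbound _ (Or.inr (by omega)), Submodule.map_bot, finrank_bot]
  have tele : ∀ m : ℕ, ∑ i ∈ range m, (-1 : ℤ) ^ i * ((B ((i : ℤ) - 1) : ℤ) + B (i : ℤ))
      = -((-1 : ℤ) ^ m * B ((m : ℤ) - 1)) := by
    intro m
    induction m with
    | zero => simp [hBneg]
    | succ m ih =>
      rw [sum_range_succ, ih, pow_succ]
      push_cast
      rw [add_sub_cancel_right]
      ring
  rw [sum_congr rfl fun i _ => by rw [key (i : ℤ), sub_sub, mul_sub], sum_sub_distrib, tele]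
  push_cast
  rw [add_sub_cancel_right, hBtop]
  simp

end Euler

/-! ### Products of levels -/

section Product

variable {k : Type*} [Field k] {M V ι : Type*} [AddCommGroup M] [Module k M] [AddCommGroup V]
  [Module k V] (D : Diff k M) (E : Diff k V) (X : ι → Submodule k V) (π : ι → M →ₗ[k] V)

/-- `D` is the product of the levels `(E, X i)` through the projections `π i`. -/
structure IsProd : Prop where
  mem : ∀ i x, π i x ∈ X i
  comm : ∀ i x, π i (D.d x) = E.d (π i x)
  deg : ∀ i j x, x ∈ D.deg j → π i x ∈ E.deg j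
  inj : ∀ x, (∀ i, π i x = 0) → x = 0
  surj : ∀ j (w : ι → V), (∀ i, w i ∈ X i ⊓ E.deg j) → ∃ x ∈ D.deg j, ∀ i, π i x = w i

variable {D E X π} (h : IsProd D E X π) (j : ℤ)

/-- Projection of cycles to the levels. -/
def toProd : D.cycles ⊤ ⊥ j →ₗ[k] (∀ i, E.H (X i) ⊥ j) :=
  LinearMap.pi fun i => (Submodule.mkQ _).comp
    (((π i).comp (D.cycles ⊤ ⊥ j).subtype).codRestrict (E.cycles (X i) ⊥ j) fun c =>
      ⟨⟨h.mem i _, h.deg i j _ c.2.1.2⟩, by
        show E.d (π i c) ∈ (⊥ : Submodule k V)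
        rw [Submodule.mem_bot, ← h.comm, (Submodule.mem_bot k).1 c.2.2, map_zero]⟩)

theorem toProd_surjective : Function.Surjective (toProd h j) := by
  intro w
  choose c hc using fun i => Submodule.Quotient.mk_surjective _ (w i)
  obtain ⟨x, hx, hw⟩ := h.surj j (fun i => (c i : V)) fun i => (c i).2.1
  refine ⟨⟨x, ⟨trivial, hx⟩, ?_⟩, funext fun i => ?_⟩
  · show D.d x ∈ (⊥ : Submodule k M)
    refine (Submodule.mem_bot k).2 (h.inj _ fun i => ?_)
    rw [h.comm, hw]
    exact (Submodule.mem_bot k).1 (c i).2.2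
  · rw [← hc i]
    exact congrArg _ (Subtype.ext (hw i))

theorem ker_toProd :
    LinearMap.ker (toProd h j) = (D.bdries ⊤ ⊥ j).comap (D.cycles ⊤ ⊥ j).subtype := by
  ext ⟨c, hc⟩
  simp only [LinearMap.mem_ker, Submodule.mem_comap, Submodule.coe_subtype]
  constructor
  · intro h0
    have h1 : ∀ i, ∃ w ∈ X i ⊓ E.deg (j + 1), E.d w = π i c := by
      intro i
      have := (Submodule.Quotient.mk_eq_zero _).1 (congrFun h0 i)
      simp only [Submodule.mem_comap, Submodule.coe_subtype, Diff.bdries, bot_inf_eq, sup_bot_eq,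
        Submodule.mem_map] at this
      exact this
    choose w hw he using h1
    obtain ⟨x, hx, hπ⟩ := h.surj (j + 1) w hw
    refine Submodule.mem_sup_left ⟨x, ⟨trivial, hx⟩, ?_⟩
    refine sub_eq_zero.1 (h.inj _ fun i => ?_)
    rw [map_sub, h.comm, hπ, he, sub_self]
  · intro hb
    simp only [Diff.bdries, bot_inf_eq, sup_bot_eq, Submodule.mem_map] at hb
    obtain ⟨x, ⟨-, hx⟩, rfl⟩ := hb
    funext i
    refine (Submodule.Quotient.mk_eq_zero _).2 ?_
    exact Submodule.mem_sup_left ⟨π i x, ⟨h.mem i x, h.deg i _ x hx⟩, (h.comm i x).symm⟩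

/-- Homology is the product of the homologies of the levels. -/
def prodEquiv : D.H ⊤ ⊥ j ≃ₗ[k] (∀ i, E.H (X i) ⊥ j) :=
  (Submodule.quotEquivOfEq _ _ (ker_toProd h j).symm).trans
    ((toProd h j).quotKerEquivOfSurjective (toProd_surjective h j))

/-- A finite-dimensional product has finitely many nonzero factors. -/
theorem finite_support {ι : Type*} (H : ι → Type*) [∀ i, AddCommGroup (H i)] [∀ i, Module k (H i)]
    [Module.Finite k (∀ i, H i)] : {i | Nontrivial (H i)}.Finite := by
  classical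
  by_contra hinf
  obtain ⟨s, hs, hcard⟩ := (Set.not_finite.1 hinf).exists_subset_card_eq
    (Module.finrank k (∀ i, H i) + 1)
  have hne : ∀ i : s, ∃ x : H i, x ≠ 0 := fun i =>
    haveI : Nontrivial (H i) := hs i.2
    exists_ne 0
  choose v hv using hne
  have hli : LinearIndependent k fun i : s => Pi.single (M := H) (i : ι) (v i) := by
    rw [Fintype.linearIndependent_iff]
    intro g hg i
    have := congrFun hg (i : ι)
    rw [Finset.sum_apply, Fintype.sum_eq_single i] at this
    · simpa [Pi.single_eq_same, hv i] using this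
    · intro i' hi'
      simp [Pi.single_eq_of_ne (fun e : (i : ι) = i' => hi' (Subtype.ext e.symm))]
  have := hli.fintype_card_le_finrank
  rw [Fintype.card_coe, hcard] at this
  omega

theorem finrank_eq_sum {ι : Type*} (H : ι → Type*) [∀ i, AddCommGroup (H i)] [∀ i, Module k (H i)]
    [Module.Finite k (∀ i, H i)] (s : Finset ι) (hs : ∀ i ∉ s, Subsingleton (H i)) :
    Module.finrank k (∀ i, H i) = ∑ i ∈ s, Module.finrank k (H i) := by
  classical
  let r : (∀ i, H i) →ₗ[k] (∀ i : s, H i) := LinearMap.pi fun i => LinearMap.proj (i : ι)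
  have hinj : Function.Injective r := by
    intro x y hxy
    funext i
    by_cases hi : i ∈ s
    · exact congrFun hxy ⟨i, hi⟩
    · exact (hs i hi).elim _ _
  have hsurj : Function.Surjective r := fun w =>
    ⟨fun i => if hi : i ∈ s then w ⟨i, hi⟩ else 0, funext fun i => dif_pos i.2⟩
  have hf : ∀ i : s, Module.Finite k (H i) := fun i =>
    Module.Finite.of_surjective (LinearMap.proj (i : ι) : (∀ i, H i) →ₗ[k] H i)
      (fun w => ⟨Pi.single (i : ι) w, by simp⟩)
  rw [(LinearEquiv.ofBijective r ⟨hinj, hsurj⟩).finrank_eq, Module.finrank_pi_fintype,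
    Finset.sum_coe_sort s fun i => Module.finrank k (H i)]

include h in
/-- The Euler characteristic is a finite sum over the levels. -/
theorem chi_eq_sum (L : ℕ) (hX : ∀ i, E.Stable (X i))
    (hbound : ∀ i (j : ℤ), (j < 0 ∨ (L : ℤ) < j) → X i ⊓ E.deg j = ⊥)
    (hfin : ∀ i j, Module.Finite k ↥(X i ⊓ E.deg j))
    (hD : ∀ j, Module.Finite k (D.H ⊤ ⊥ j)) :
    ∃ s₀ : Finset ι, ∀ s, s₀ ⊆ s → D.chi ⊤ ⊥ =
      ∑ i ∈ s, ∑ m ∈ range (L + 1),
        (-1 : ℤ) ^ m * (Module.finrank k ↥(X i ⊓ E.deg (m : ℤ)) : ℤ) := by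
  classical
  have hP : ∀ j, Module.Finite k (∀ i, E.H (X i) ⊥ j) := fun j =>
    have := hD j
    Module.Finite.equiv (prodEquiv h j)
  have hF : ∀ j : ℤ, {i | Nontrivial (E.H (X i) ⊥ j)}.Finite := fun j =>
    have := hP j
    finite_support (k := k) _
  refine ⟨(range (L + 1)).biUnion fun m : ℕ => (hF (m : ℤ)).toFinset, fun s hs => ?_⟩
  have hb : ∀ j : ℤ, (D.betti ⊤ ⊥ j : ℕ) = Module.finrank k (∀ i, E.H (X i) ⊥ j) := fun j =>
    (prodEquiv h j).finrank_eq
  have hout : ∀ j : ℤ, (j < 0 ∨ (L : ℤ) < j) → D.betti ⊤ ⊥ j = 0 := by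
    intro j hj
    have : Subsingleton (∀ i, E.H (X i) ⊥ j) := by
      have hsub : ∀ i, Subsingleton (E.H (X i) ⊥ j) := fun i =>
        subsingleton_of_eq_bot E (X i) j (hbound i j hj)
      infer_instance
    rw [hb, Module.finrank_zero_of_subsingleton]
  have hsum : D.chi ⊤ ⊥ = ∑ m ∈ range (L + 1), (-1 : ℤ) ^ m * (D.betti ⊤ ⊥ (m : ℤ) : ℤ) := by
    rw [Diff.chi, finsum_eq_sum_of_support_subset _
      (s := (range (L + 1)).image (fun m : ℕ => (m : ℤ))), sum_image]
    · refine sum_congr rfl fun m _ => ?_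
      simp [Int.negOnePow_def, zpow_natCast]
    · intro a _ b _ hab
      exact Int.ofNat.inj hab
    · intro j hj
      simp only [coe_image, Set.mem_image, mem_coe, mem_range]
      by_contra hc
      refine hj ?_
      have : j < 0 ∨ (L : ℤ) < j := by
        by_contra h'
        exact hc ⟨j.toNat, by omega, by omega⟩
      show _ * (D.betti ⊤ ⊥ j : ℤ) = 0
      rw [hout j this]
      simp
  rw [hsum, sum_congr rfl fun i _ => (euler_sub E (X i) (hX i) L (hbound i) (hfin i)).symm,
    sum_comm]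
  refine sum_congr rfl fun m hm => ?_
  have := hP (m : ℤ)
  rw [hb, finrank_eq_sum (fun i => E.H (X i) ⊥ (m : ℤ)) s, Nat.cast_sum, mul_sum]
  · rfl
  · intro i hi
    by_contra hns
    exact hi (hs (mem_biUnion.2 ⟨m, hm, (hF (m : ℤ)).mem_toFinset.2
      (not_subsingleton_iff_nontrivial.1 hns)⟩))

end Product

end Vale.Agent.P202.Levels
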