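import Vale.Agent.P202.Segre.Finite
import Vale.Agent.P202.Segre.Levels

/-!
# P202: the Euler characteristic of a linear complex on the Segre module
-/

noncomputable section

namespace Vale.Agent.P202.Segre

open Finset

variable {k : Type*} [Field k] {n : ℕ} (K : ℕ)

/-- The image is concentrated in degree one. -/
def Lin (a : (MvPowerSeries (Fin (n + 1)) k)) : Prop := ∀ u : ℤ, u ≠ 1 → (segreHom k n a).coeff u = 0

variable (k n) in
/-- The degree one coefficient. -/
def lead (a : (MvPowerSeries (Fin (n + 1)) k)) : Coef k n := (segreHom k n a).coeff 1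

theorem Lin.eq_single {a : (MvPowerSeries (Fin (n + 1)) k)} (ha : Lin a) :
    segreHom k n a = HahnSeries.single (1 : ℤ) (lead k n a) := by
  refine HahnSeries.ext (funext fun u => ?_)
  by_cases hu : u = 1
  · subst hu; rw [HahnSeries.coeff_single_same]; rfl
  · rw [HahnSeries.coeff_single_of_ne hu, ha u hu]

theorem Lin.smul_coeff {a : (MvPowerSeries (Fin (n + 1)) k)} (ha : Lin a) (f : Lam k n) (t : ℤ) :
    (a • f).coeff t = lead k n a * f.coeff (t - 1) := by
  have h1 := HahnSeries.coeff_single_mul_add (r := lead k n a) (x := f) (a := t - 1) (b := 1)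
  rw [sub_add_cancel] at h1
  rw [smul_def, ha.eq_single, h1]

theorem Lin.zero : Lin (0 : (MvPowerSeries (Fin (n + 1)) k)) := fun u _ => by simp

theorem Lin.add {a b : (MvPowerSeries (Fin (n + 1)) k)} (ha : Lin a) (hb : Lin b) : Lin (a + b) := fun u hu => by
  simp [ha u hu, hb u hu]

theorem Lin.neg {a : (MvPowerSeries (Fin (n + 1)) k)} (ha : Lin a) : Lin (-a) := fun u hu => by simp [ha u hu]

theorem Lin.X (j : Fin (n + 1)) : Lin (MvPowerSeries.X j : (MvPowerSeries (Fin (n + 1)) k)) := fun u hu => by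
  rw [segreHom_X, HahnSeries.coeff_single_of_ne hu]

/-- A Koszul complex of linear elements has linear entries. -/
theorem lin_koszul : ∀ z : List (MvPowerSeries (Fin (n + 1)) k), (∀ a ∈ z, Lin a) →
    ∀ h g, Lin ((FreeCx.koszul z).mat h g)
  | [], _, h, g => Lin.zero
  | z :: zs, hz, h, g => by
    have ih := lin_koszul zs fun a ha => hz a (List.mem_cons_of_mem _ ha)
    show Lin ((if h.2 = g.2 then (FreeCx.koszul zs).mat h.1 g.1 else 0) +
      (if h.1 = g.1 then (FreeCx.koszul zs).sgn h.1 * (FreeCx.koszul1 z).mat h.2 g.2 else 0))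
    have h1 : ∀ a b, Lin ((FreeCx.koszul1 z).mat a b) := fun a b => by
      fin_cases a <;> fin_cases b <;>
        first
        | exact hz z (List.mem_cons_self)
        | exact Lin.zero
    refine Lin.add ?_ ?_
    · split_ifs
      · exact ih _ _
      · exact Lin.zero
    · split_ifs
      · rcases neg_one_pow_eq_or (MvPowerSeries (Fin (n + 1)) k) ((FreeCx.koszul zs).pos h.1) with e | e
        · rw [FreeCx.sgn, e, one_mul]; exact h1 _ _
        · rw [FreeCx.sgn, e, neg_one_mul]; exact (h1 _ _).neg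
      · exact Lin.zero

variable {G : FreeCx (MvPowerSeries (Fin (n + 1)) k)} (hG : ∀ h g, Lin (G.mat h g))

/-- The complex acting in each degree. -/
abbrev leadCx : FreeCx (Coef k n) where
  ι := G.ι
  pos := G.pos
  mat := Matrix.of fun h g => lead k n (G.mat h g)
  mat_pos h g hne := G.mat_pos h g fun e => hne (by simp [lead, e])
  sq := by
    ext1 h l
    rw [Matrix.mul_apply]
    show _ = (0 : Coef k n)
    have h2 : ∑ g, segreHom k n (G.mat h g) * segreHom k n (G.mat g l) = 0 := by
      simp only [← map_mul, ← map_sum]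
      rw [← Matrix.mul_apply, G.sq, Matrix.zero_apply, map_zero]
    have h3 := congrArg (fun x : Lam k n => x.coeff 2) h2
    simp only [HahnSeries.coeff_sum, HahnSeries.coeff_zero] at h3
    refine Eq.trans (Finset.sum_congr rfl fun g _ => ?_) h3
    rw [(hG h g).eq_single, (hG g l).eq_single, HahnSeries.single_mul_single]
    norm_num

variable (k n) in
/-- Exponents allowed in degree `t`. -/
def boxSet (t : ℤ) : Finset (Fin n → ℤ) :=
  Fintype.piFinset fun a => Finset.Icc (0 : ℤ) (t + shift n K a)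

variable (k n) in
/-- Coefficients allowed in degree `t`. -/
def boxSub (t : ℤ) : Submodule k (Coef k n) where
  carrier := {c | ∀ α, c.coeff α ≠ 0 → allowed n K t α none}
  zero_mem' α h := absurd (by simp) h
  add_mem' {c d} hc hd α h := by
    by_cases h1 : c.coeff α = 0
    · exact hd α fun h2 => h (by simp [h1, h2])
    · exact hc α h1
  smul_mem' a c hc α h := hc α fun h1 => h (by simp [h1])

theorem allowed_iff_mem_boxSet (t : ℤ) (α : Fin n → ℤ) :
    allowed n K t α none ↔ α ∈ boxSet n K t := by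
  simp [boxSet, allowed, Fintype.mem_piFinset]

/-- Coefficients allowed in degree `t` are functions on the box. -/
def boxEquiv (t : ℤ) : boxSub k n K t ≃ₗ[k] (boxSet n K t → k) where
  toFun c α := (c : Coef k n).coeff α
  invFun w := ⟨∑ α : boxSet n K t, AddMonoidAlgebra.single (α : Fin n → ℤ) (w α), by
    refine Submodule.sum_mem _ fun α _ β hβ => ?_
    rw [AddMonoidAlgebra.coeff_single, Finsupp.single_apply] at hβ
    split_ifs at hβ with e
    · subst e; exact (allowed_iff_mem_boxSet K t _).2 α.2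
    · exact absurd rfl hβ⟩
  left_inv c := by
    apply Subtype.ext
    ext β
    simp only [AddMonoidAlgebra.coeff_sum, Finsupp.finsetSum_apply, AddMonoidAlgebra.coeff_single,
      Finsupp.single_apply]
    by_cases hβ : β ∈ boxSet n K t
    · rw [Fintype.sum_eq_single ⟨β, hβ⟩ fun α hα => if_neg fun e => hα (Subtype.ext e), if_pos rfl]
    · have : (c : Coef k n).coeff β = 0 := by
        by_contra h0
        exact hβ ((allowed_iff_mem_boxSet K t β).1 (c.2 β h0))
      rw [this, Fintype.sum_eq_zero]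
      intro α
      rw [if_neg]
      rintro rfl
      exact hβ α.2
  right_inv w := by
    funext β
    simp only [AddMonoidAlgebra.coeff_sum, Finsupp.finsetSum_apply, AddMonoidAlgebra.coeff_single,
      Finsupp.single_apply]
    rw [Fintype.sum_eq_single β fun α hα => if_neg fun e => hα (Subtype.ext e), if_pos rfl]
  map_add' c d := by funext α; simp
  map_smul' a c := by funext α; simp

variable (n) in
/-- The Hilbert function of the Segre module. -/
def hilb (t : ℤ) : ℤ := if t ≤ 0 then 0 else pFun n K t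

theorem card_boxSet (hn : 0 < n) (t : ℤ) : ((boxSet n K t).card : ℤ) = hilb n K t := by
  rw [boxSet, Fintype.card_piFinset]
  simp only [Int.card_Icc, hilb, pFun]
  split_ifs with ht
  · rw [Finset.prod_eq_zero (Finset.mem_univ (⟨0, hn⟩ : Fin n)), Nat.cast_zero]
    simp [shift]
    omega
  · push_cast
    refine Finset.prod_congr rfl fun a _ => ?_
    have : (0 : ℤ) ≤ (a.val : ℤ) * K := by positivity
    simp only [shift]
    omega

variable (k n G) in
/-- The levels: coefficient in degree `ℓ - pos`. -/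
def levelSub (ℓ : ℤ) : Submodule k (G.ι → Coef k n) :=
  Submodule.pi Set.univ fun g => boxSub k n K (ℓ - G.pos g)

variable (k n G) in
/-- Projection to a level. -/
def levelProj (ℓ : ℤ) : (G.ι → comp k n K none) →ₗ[k] (G.ι → Coef k n) where
  toFun f g := (f g : Lam k n).coeff (ℓ - G.pos g)
  map_add' f f' := by funext g; simp
  map_smul' c f := by funext g; simp

theorem mem_levelSub {ℓ : ℤ} {v : G.ι → Coef k n} :
    v ∈ levelSub k n K G ℓ ↔ ∀ g, v g ∈ boxSub k n K (ℓ - G.pos g) := by
  simp [levelSub]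

include hG in
theorem isProd (hn : 0 < n) :
    Levels.IsProd (G.diff (comp k n K none) k) ((leadCx hG).diff (Coef k n) k)
      (levelSub k n K G) (levelProj k n K G) where
  mem ℓ f := (mem_levelSub K).2 fun g α hα => (f g).2 _ α hα
  comm ℓ f := by
    funext h
    show ((G.dA (comp k n K none) f h : comp k n K none) : Lam k n).coeff (ℓ - G.pos h) =
      (leadCx hG).dA (Coef k n) (levelProj k n K G ℓ f) h
    rw [FreeCx.dA_apply, FreeCx.dA_apply]
    simp only [AddSubmonoidClass.coe_finsetSum, SetLike.val_smul, HahnSeries.coeff_sum, smul_eq_mul]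
    refine Finset.sum_congr rfl fun (g : G.ι) _ => ?_
    show _ = lead k n (G.mat h g) * (f g : Lam k n).coeff (ℓ - G.pos g)
    rw [(hG h g).smul_coeff]
    by_cases hm : G.mat h g = 0
    · simp [hm, lead]
    · have := G.mat_pos h g hm
      congr 2
      omega
  deg ℓ j f hf g hg := by
    show (f g : Lam k n).coeff _ = 0
    rw [hf g hg]
    simp
  inj f hf := by
    funext g
    apply Subtype.ext
    refine HahnSeries.ext (funext fun t => ?_)
    have := congrFun (hf (t + G.pos g)) g
    simp only [levelProj, LinearMap.coe_mk, AddHom.coe_mk, add_sub_cancel_right, Pi.zero_apply] at this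
    simpa using this
  surj j w hw := by
    have hbox : ∀ ℓ g, w ℓ g ∈ boxSub k n K (ℓ - G.pos g) := fun ℓ => (mem_levelSub K).1 (hw ℓ).1
    have hbdd : ∀ g : G.ι, BddBelow (Function.support fun t : ℤ => w (t + G.pos g) g) := by
      intro g
      refine ⟨1, fun t ht => ?_⟩
      obtain ⟨α, hα⟩ : ∃ α, (w (t + G.pos g) g).coeff α ≠ 0 := by
        by_contra hne
        push Not at hne
        exact ht (AddMonoidAlgebra.ext (Finsupp.ext fun α => by simp [hne α]))
      have := one_le_of_allowed K hn (hbox _ g α hα)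
      omega
    let x : G.ι → comp k n K none := fun g => ⟨HahnSeries.ofSuppBddBelow _ (hbdd g), fun t α hα => by
      have := hbox _ g α hα
      simpa using this⟩
    refine ⟨x, fun g hg => ?_, fun ℓ => ?_⟩
    · apply Subtype.ext
      refine HahnSeries.ext (funext fun t => ?_)
      exact (hw _).2 g hg
    · funext g
      show w (ℓ - G.pos g + G.pos g) g = w ℓ g
      rw [sub_add_cancel]

theorem levelSub_stable (ℓ : ℤ) :
    ((leadCx hG).diff (Coef k n) k).Stable (levelSub k n K G ℓ) := by
  intro v hv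
  rw [mem_levelSub] at hv ⊢
  intro h
  show (leadCx hG).dA (Coef k n) v h ∈ _
  rw [FreeCx.dA_apply]
  refine Submodule.sum_mem _ fun (g : G.ι) _ => ?_
  show lead k n (G.mat h g) * v g ∈ boxSub k n K (ℓ - G.pos h)
  by_cases hm : G.mat h g = 0
  · simp [hm, lead]
  · intro γ hγ
    obtain ⟨α, β, hα, hβ, rfl⟩ := coef_mul_ne hγ
    have hpos := G.mat_pos h g hm
    have hb : ∀ a, 0 ≤ α a ∧ α a ≤ ((1 : ℕ) : ℤ) := by
      rw [lead, show (1 : ℤ) = ((1 : ℕ) : ℤ) by norm_num, segreHom_coeff_nat] at hα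
      exact toSeries_mem_box k n _ 1 α hα
    have := allowed_add (hv g β hβ) hb
    rw [add_comm α β, show ℓ - (G.pos h : ℤ) = ℓ - G.pos g + ((1 : ℕ) : ℤ) by omega]
    exact this

/-- A position piece of a level. -/
def levelDegEquiv (ℓ : ℤ) (m : ℕ) :
    ↥(levelSub k n K G ℓ ⊓ ((leadCx hG).diff (Coef k n) k).deg (m : ℤ)) ≃ₗ[k]
      ({g : G.ι // G.pos g = m} → boxSub k n K (ℓ - m)) where
  toFun v g := ⟨v.1 g.1, by
    have := (mem_levelSub K).1 v.2.1 g.1
    rwa [g.2] at this⟩
  invFun w := ⟨fun g => if h : G.pos g = m then (w ⟨g, h⟩ : Coef k n) else 0, by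
    refine ⟨(mem_levelSub K).2 fun g => ?_, fun (g : G.ι) hg => dif_neg fun e => hg (congrArg _ e)⟩
    split_ifs with h
    · rw [h]; exact (w ⟨g, h⟩).2
    · exact zero_mem _⟩
  left_inv v := by
    apply Subtype.ext
    funext g
    by_cases h : G.pos g = m
    · simp [h]
    · rw [show v.1 g = 0 from v.2.2 g fun e => h (Int.ofNat.inj e)]
      simp [h]
  right_inv w := by
    funext g
    apply Subtype.ext
    simp [g.2]
  map_add' v v' := rfl
  map_smul' c v := rfl

theorem finrank_levelDeg (hn : 0 < n) (ℓ : ℤ) (m : ℕ) :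
    (Module.finrank k ↥(levelSub k n K G ℓ ⊓ ((leadCx hG).diff (Coef k n) k).deg (m : ℤ)) : ℤ) =
      (univ.filter fun g : G.ι => G.pos g = m).card * hilb n K (ℓ - m) := by
  have hfin : Module.Finite k (boxSub k n K (ℓ - m)) :=
    Module.Finite.equiv (boxEquiv K (ℓ - m)).symm
  rw [(levelDegEquiv K hG ℓ m).finrank_eq, Module.finrank_pi_fintype, sum_const, card_univ,
    Fintype.card_subtype, smul_eq_mul, (boxEquiv K (ℓ - m)).finrank_eq, Module.finrank_pi,
    Fintype.card_coe, Nat.cast_mul, card_boxSet K hn]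

include hG in
/-- The Euler characteristic of a linear complex on the Segre module, level by level. -/
theorem chi_linear (hn : 0 < n) (hfin : G.FiniteHom (comp k n K none) k) :
    ∃ s₀ : Finset ℤ, ∀ s, s₀ ⊆ s → G.chi (comp k n K none) k =
      ∑ ℓ ∈ s, ∑ g : G.ι, (-1 : ℤ) ^ G.pos g * hilb n K (ℓ - G.pos g) := by
  classical
  set L : ℕ := univ.sup G.pos with hL
  have hpos : ∀ g, G.pos g ≤ L := fun g => le_sup (mem_univ g)
  have hbound : ∀ ℓ (j : ℤ), (j < 0 ∨ (L : ℤ) < j) →
      levelSub k n K G ℓ ⊓ ((leadCx hG).diff (Coef k n) k).deg j = ⊥ := by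
    intro ℓ j hj
    rw [eq_bot_iff]
    intro v hv
    rw [Submodule.mem_bot]
    funext g
    exact hv.2 g (show (G.pos g : ℤ) ≠ j by have := hpos g; omega)
  have hfl : ∀ ℓ j, Module.Finite k
      ↥(levelSub k n K G ℓ ⊓ ((leadCx hG).diff (Coef k n) k).deg j) := by
    intro ℓ j
    by_cases hj : j < 0
    · rw [hbound ℓ j (Or.inl hj)]; infer_instance
    · obtain ⟨m, rfl⟩ := Int.eq_ofNat_of_zero_le (not_lt.1 hj)
      have : Module.Finite k (boxSub k n K (ℓ - m)) :=
        Module.Finite.equiv (boxEquiv K (ℓ - m)).symm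
      exact Module.Finite.equiv (levelDegEquiv K hG ℓ m).symm
  obtain ⟨s₀, hs⟩ := Levels.chi_eq_sum (isProd K hG hn) L (levelSub_stable K hG) hbound hfl hfin
  refine ⟨s₀, fun s hss => (hs s hss).trans (sum_congr rfl fun ℓ _ => ?_)⟩
  rw [← sum_fiberwise_of_maps_to (t := range (L + 1)) (g := G.pos)
    (fun g _ => mem_range.2 (Nat.lt_succ_of_le (hpos g)))]
  refine sum_congr rfl fun m _ => ?_
  rw [finrank_levelDeg K hG hn, sum_congr rfl (fun g hg => by rw [(mem_filter.1 hg).2] :
    ∀ g ∈ univ.filter (fun g : G.ι => G.pos g = m),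
      (-1 : ℤ) ^ G.pos g * hilb n K (ℓ - G.pos g) = (-1) ^ m * hilb n K (ℓ - m)),
    sum_const, nsmul_eq_mul]
  ring

/-! ### Differences -/

/-- Backward difference. -/
def bdiff (f : ℤ → ℤ) (t : ℤ) : ℤ := f t - f (t - 1)

theorem koszul_pos_sum {A : Type*} [CommRing A] : ∀ (z : List A) (f : ℤ → ℤ) (ℓ : ℤ),
    ∑ g : (FreeCx.koszul z).ι, (-1 : ℤ) ^ (FreeCx.koszul z).pos g *
      f (ℓ - (FreeCx.koszul z).pos g) = (bdiff^[z.length]) f ℓ
  | [], f, ℓ => by
      show ∑ g : (FreeCx.one A).ι, (-1 : ℤ) ^ (FreeCx.one A).pos g *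
        f (ℓ - (FreeCx.one A).pos g) = f ℓ
      have : Unique (FreeCx.one A).ι := inferInstanceAs (Unique Unit)
      rw [Fintype.sum_unique]
      simp [FreeCx.one]
  | z :: zs, f, ℓ => by
      rw [List.length_cons, Function.iterate_succ_apply, ← koszul_pos_sum zs (bdiff f) ℓ]
      refine Eq.trans (Fintype.sum_prod_type _) ?_
      refine Finset.sum_congr rfl fun g _ => ?_
      show ∑ i : Fin 2, (-1 : ℤ) ^ ((FreeCx.koszul zs).pos g + i.val) *
        f (ℓ - ((((FreeCx.koszul zs).pos g + i.val : ℕ)) : ℤ)) = _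
      rw [Fin.sum_univ_two, bdiff]
      simp only [Fin.val_zero, Fin.val_one, add_zero, pow_succ, Nat.cast_add, Nat.cast_one]
      rw [sub_add_eq_sub_sub]
      ring

theorem bdiff_iterate_congr (m : ℕ) {f g : ℤ → ℤ} {t : ℤ}
    (h : ∀ u ∈ Finset.Icc (t - m) t, f u = g u) : (bdiff^[m]) f t = (bdiff^[m]) g t := by
  induction m generalizing f g with
  | zero => exact h t (by simp)
  | succ m ih =>
    rw [Function.iterate_succ_apply, Function.iterate_succ_apply]
    refine ih fun u hu => ?_
    rw [Finset.mem_Icc] at hu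
    rw [bdiff, bdiff, h u (Finset.mem_Icc.2 ⟨by omega, by omega⟩),
      h (u - 1) (Finset.mem_Icc.2 ⟨by omega, by omega⟩)]

theorem bdiff_iterate_eq_fwdDiff (m : ℕ) (f : ℤ → ℤ) (t : ℤ) :
    (bdiff^[m]) f t = ((fwdDiff (1 : ℤ))^[m]) f (t - m) := by
  induction m generalizing t with
  | zero => simp
  | succ m ih =>
    rw [Function.iterate_succ_apply', Function.iterate_succ_apply', bdiff, ih, ih, fwdDiff]
    rw [show t - ((m + 1 : ℕ) : ℤ) + 1 = t - m by omega,
      show t - 1 - (m : ℤ) = t - ((m + 1 : ℕ) : ℤ) by omega]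

theorem bdiff_hilb_zero (m : ℕ) {t : ℤ} (ht : t ≤ 0) : (bdiff^[m]) (hilb n K) t = 0 := by
  rw [bdiff_iterate_congr m (g := 0)]
  · clear ht
    induction m generalizing t with
    | zero => rfl
    | succ m ih => rw [Function.iterate_succ_apply', bdiff, ih, ih, sub_self]
  · intro u hu
    rw [Finset.mem_Icc] at hu
    simp [hilb, show u ≤ 0 by omega]

theorem bdiff_hilb_top (hn : 0 < n) {t : ℤ} (ht : (n : ℤ) ≤ t) :
    (bdiff^[n]) (hilb n K) t = n.factorial := by
  let Q : Polynomial ℤ := ∏ a : Fin n, (Polynomial.X + Polynomial.C ((a.val : ℤ) * K))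
  have hQd : Q.natDegree = n := by
    rw [Polynomial.natDegree_prod_of_monic _ _ fun a _ => Polynomial.monic_X_add_C _]
    simp only [Polynomial.natDegree_X_add_C, Finset.sum_const, Finset.card_univ, Fintype.card_fin,
      smul_eq_mul, mul_one]
  have hQl : Q.leadingCoeff = 1 :=
    Polynomial.monic_prod_of_monic _ _ fun a _ => Polynomial.monic_X_add_C _
  rw [bdiff_iterate_congr n (g := Q.eval), bdiff_iterate_eq_fwdDiff]
  · have := congrFun (Polynomial.fwdDiff_iter_degree_eq_factorial Q) (t - n)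
    rw [hQd, hQl] at this
    rw [this]
    simp
  · intro u hu
    rw [Finset.mem_Icc] at hu
    have hQ : Q.eval u = pFun n K u := by simp [Q, pFun, Polynomial.eval_prod]
    rw [hQ, hilb]
    split_ifs with h0
    · have : u = 0 := by omega
      subst this
      rw [pFun, Finset.prod_eq_zero (Finset.mem_univ (⟨0, hn⟩ : Fin n))]
      simp
    · rfl

theorem sum_bdiff (g : ℤ → ℤ) (lo : ℤ) (N : ℕ) :
    ∑ ℓ ∈ Finset.Ioc lo (lo + N), bdiff g ℓ = g (lo + N) - g lo := by
  induction N with
  | zero => simp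
  | succ N ih =>
    rw [show lo + ((N + 1 : ℕ) : ℤ) = lo + N + 1 by omega,
      show Finset.Ioc lo (lo + (N : ℤ) + 1) = insert (lo + (N : ℤ) + 1) (Finset.Ioc lo (lo + N)) by
        ext x; simp only [Finset.mem_Ioc, Finset.mem_insert]; omega,
      Finset.sum_insert (by simp), ih, bdiff, add_sub_cancel_right]
    ring

/-- The Koszul complex of `n + 1` linear elements has Euler characteristic `n!` on the Segre
module. -/
theorem koszul_chi (hn : 0 < n) (z : List (MvPowerSeries (Fin (n + 1)) k)) (hz : ∀ a ∈ z, Lin a) (hlen : z.length = n + 1)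
    (hfin : (FreeCx.koszul z).FiniteHom (comp k n K none) k) :
    (FreeCx.koszul z).chi (comp k n K none) k = (n.factorial : ℤ) := by
  obtain ⟨s₀, hs⟩ := chi_linear K (lin_koszul z hz) hn hfin
  obtain ⟨N, hN⟩ : ∃ N : ℕ, ∀ x ∈ s₀, -(N : ℤ) ≤ x ∧ x ≤ N :=
    ⟨s₀.sup fun x => x.natAbs, fun x hx => by
      have := Finset.le_sup (f := fun x : ℤ => x.natAbs) hx
      omega⟩
  let lo : ℤ := -(N : ℤ) - 1
  rw [hs (Finset.Ioc lo (lo + ((2 * N + 1 + n : ℕ) : ℤ))) fun x hx => by
    have := hN x hx
    rw [Finset.mem_Ioc]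
    simp only [lo]
    omega]
  simp only [koszul_pos_sum, hlen, Function.iterate_succ_apply']
  rw [sum_bdiff, bdiff_hilb_top K hn (by simp only [lo]; push_cast; omega),
    bdiff_hilb_zero K n (by simp only [lo]; omega), sub_zero]

end Vale.Agent.P202.Segre
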