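import Vale.Agent.P202.HomAlg.Homotopy
import Vale.Agent.P202.RingSide.Complete
import Vale.Agent.P202.Segre.KoszulU

/-!
# P202: homology on the Segre components, unconditional forms
-/

noncomputable section

namespace Vale.Agent.P202

open Finset

namespace FreeCx

variable {A : Type*} [CommRing A] (G : FreeCx A) (M : Type*) [AddCommGroup M] [Module A M]

/-- The elements killing the homology of `G ⊗ M` form an ideal. -/
def killIdeal : Ideal A where
  carrier := {a | G.Kills M a}
  zero_mem' f _ := ⟨0, by simp⟩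
  add_mem' {a b} ha hb f hf := by
    obtain ⟨v, hv⟩ := ha f hf
    obtain ⟨w, hw⟩ := hb f hf
    exact ⟨v + w, by rw [map_add, hv, hw, add_smul]⟩
  smul_mem' c a ha f hf := by
    obtain ⟨v, hv⟩ := ha f hf
    exact ⟨c • v, by rw [map_smul, hv, smul_smul, smul_eq_mul]⟩

theorem dA_koszul_cons (z : A) (zs : List A) (f : (koszul (z :: zs)).ι → M) (h : (koszul zs).ι) :
    (koszul (z :: zs)).dA M f (h, (0 : Fin 2)) =
        (koszul zs).dA M (fun g => f (g, (0 : Fin 2))) h +
          (koszul zs).sgn h • z • f (h, (1 : Fin 2)) ∧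
      (koszul (z :: zs)).dA M f (h, (1 : Fin 2)) =
        (koszul zs).dA M (fun g => f (g, (1 : Fin 2))) h := by
  constructor <;>
  · refine (Fintype.sum_prod_type _).trans ?_
    rw [dA_apply]
    show (∑ g, ∑ i : Fin 2,
      ((if _ = i then (koszul zs).mat h g else 0) +
        if h = g then (koszul zs).sgn h * (koszul1 z).mat _ i else 0) • f (g, i)) = _
    simp [Fin.sum_univ_two, koszul1, Finset.sum_add_distrib, add_smul, ite_smul, mul_smul]

theorem sgn_mul_self (g : G.ι) : G.sgn g * G.sgn g = 1 := by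
  rw [sgn, ← mul_pow]
  simp

theorem dA_sgn_smul (v : G.ι → M) (h : G.ι) :
    G.dA M (fun g => G.sgn g • v g) h = -(G.sgn h • G.dA M v h) := by
  rw [dA_apply, dA_apply, Finset.smul_sum, ← Finset.sum_neg_distrib]
  refine Finset.sum_congr rfl fun g _ => ?_
  by_cases hm : G.mat h g = 0
  · simp [hm]
  · rw [sgn, sgn, G.mat_pos h g hm, pow_succ, smul_smul, smul_smul, ← neg_smul]
    congr 1
    ring

/-- A power of each element of the list kills the homology of its Koszul complex. -/
theorem exists_kills_koszul : ∀ (zs : List A) (a : A), a ∈ zs →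
    ∃ N : ℕ, (koszul zs).Kills M (a ^ N)
  | [], a, ha => absurd ha (List.not_mem_nil)
  | z :: zs, a, ha => by
    rcases List.mem_cons.1 ha with rfl | ha'
    · refine ⟨1, fun f hf => ?_⟩
      rw [pow_one]
      let f0 : (koszul zs).ι → M := fun g => f (g, (0 : Fin 2))
      let f1 : (koszul zs).ι → M := fun g => f (g, (1 : Fin 2))
      have e0 : ∀ h, (koszul zs).dA M f0 h + (koszul zs).sgn h • a • f1 h = 0 := fun h => by
        rw [← (dA_koszul_cons M a zs f h).1, hf]; rfl
      refine ⟨fun p => (![(0 : M), (koszul zs).sgn p.1 • f0 p.1] : Fin 2 → M) p.2,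
        funext fun p => ?_⟩
      obtain ⟨h, i⟩ := p
      fin_cases i
      · refine ((dA_koszul_cons M a zs _ h).1).trans ?_
        show (koszul zs).dA M (0 : (koszul zs).ι → M) h +
          (koszul zs).sgn h • a • (koszul zs).sgn h • f0 h = a • f0 h
        rw [map_zero, Pi.zero_apply, zero_add, smul_comm a, smul_smul, sgn_mul_self, one_smul]
      · refine ((dA_koszul_cons M a zs _ h).2).trans ?_
        show (koszul zs).dA M (fun g => (koszul zs).sgn g • f0 g) h = a • f1 h
        rw [dA_sgn_smul, eq_neg_of_add_eq_zero_left (e0 h), smul_neg, neg_neg, smul_smul,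
          sgn_mul_self, one_smul]
    · obtain ⟨N, hN⟩ := exists_kills_koszul zs a ha'
      refine ⟨N + N, fun f hf => ?_⟩
      let f0 : (koszul zs).ι → M := fun g => f (g, (0 : Fin 2))
      let f1 : (koszul zs).ι → M := fun g => f (g, (1 : Fin 2))
      have e0 : ∀ h, (koszul zs).dA M f0 h + (koszul zs).sgn h • z • f1 h = 0 := fun h => by
        rw [← (dA_koszul_cons M z zs f h).1, hf]; rfl
      have e1 : (koszul zs).dA M f1 = 0 := funext fun h => by
        rw [← (dA_koszul_cons M z zs f h).2, hf]; rfl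
      obtain ⟨v1, hv1⟩ := hN f1 e1
      let c : (koszul zs).ι → M := fun g => a ^ N • f0 g - z • (koszul zs).sgn g • v1 g
      have hc : (koszul zs).dA M c = 0 := by
        funext h
        have : c = a ^ N • f0 - z • (fun g => (koszul zs).sgn g • v1 g) := rfl
        rw [this, map_sub, map_smul, map_smul, Pi.sub_apply, Pi.smul_apply, Pi.smul_apply,
          dA_sgn_smul, hv1, eq_neg_of_add_eq_zero_left (e0 h), Pi.smul_apply, Pi.zero_apply,
          smul_neg, smul_neg, sub_neg_eq_add, smul_comm (a ^ N) ((koszul zs).sgn h),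
          smul_comm z ((koszul zs).sgn h), smul_comm (a ^ N) z, neg_add_cancel]
      obtain ⟨v0, hv0⟩ := hN c hc
      refine ⟨fun p => (![v0 p.1, a ^ N • v1 p.1] : Fin 2 → M) p.2, funext fun p => ?_⟩
      obtain ⟨h, i⟩ := p
      fin_cases i
      · refine ((dA_koszul_cons M z zs _ h).1).trans ?_
        show (koszul zs).dA M v0 h + (koszul zs).sgn h • z • a ^ N • v1 h = a ^ (N + N) • f0 h
        rw [hv0, Pi.smul_apply, pow_add, mul_smul]
        show a ^ N • (a ^ N • f0 h - z • (koszul zs).sgn h • v1 h) +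
          (koszul zs).sgn h • z • a ^ N • v1 h = _
        rw [smul_sub, smul_comm z (a ^ N), smul_comm ((koszul zs).sgn h) (a ^ N),
          smul_comm ((koszul zs).sgn h) z, sub_add_cancel]
      · refine ((dA_koszul_cons M z zs _ h).2).trans ?_
        show (koszul zs).dA M (a ^ N • v1) h = a ^ (N + N) • f1 h
        rw [map_smul, hv1, Pi.smul_apply, Pi.smul_apply, pow_add, mul_smul]

end FreeCx

namespace Segre

variable {k : Type*} [Field k]

/-- The quotient of power series by a power of the maximal ideal is finite-dimensional. -/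
theorem finite_quot_pow (D M : ℕ) : Module.Finite k (MvPowerSeries (Fin D) k ⧸
    IsLocalRing.maximalIdeal (MvPowerSeries (Fin D) k) ^ M) := by
  classical
  set I := IsLocalRing.maximalIdeal (MvPowerSeries (Fin D) k) ^ M with hI
  let S : Finset (Fin D →₀ ℕ) := Finset.Iic (Finsupp.equivFunOnFinite.symm fun _ => M)
  refine Module.Finite.of_surjective (∑ t : S, ((Ideal.Quotient.mkₐ k I).toLinearMap.comp
    (MvPowerSeries.monomial (t : Fin D →₀ ℕ))).comp (LinearMap.proj t) :
      (S → k) →ₗ[k] MvPowerSeries (Fin D) k ⧸ I) fun q => ?_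
  obtain ⟨F, rfl⟩ := Ideal.Quotient.mk_surjective q
  refine ⟨fun t => MvPowerSeries.coeff (t : Fin D →₀ ℕ) F, ?_⟩
  simp only [LinearMap.coe_sum, Finset.sum_apply, LinearMap.comp_apply, LinearMap.proj_apply,
    AlgHom.toLinearMap_apply, Ideal.Quotient.mkₐ_eq_mk, ← map_sum]
  rw [Ideal.Quotient.eq, hI, maximalIdeal_mvPowerSeries]
  refine mem_span_X_pow fun d hd => ?_
  have hdS : d ∈ S := Finset.mem_Iic.2 fun i => by
    have := Finsupp.le_degree i d
    simp
    omega
  rw [map_sub, map_sum, Fintype.sum_eq_single ⟨d, hdS⟩, MvPowerSeries.coeff_monomial_same,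
    sub_self]
  intro t ht
  rw [MvPowerSeries.coeff_monomial, if_neg]
  rintro rfl
  exact ht rfl

variable {n : ℕ} (K : ℕ)

/-- The homology on a localised component vanishes. -/
theorem comp_subsingleton_of_finiteHom (G : FreeCx (MvPowerSeries (Fin (n + 1)) k))
    (hG : G.FiniteHom (MvPowerSeries (Fin (n + 1)) k) k) {L : ℕ} (hL : G.LengthLE L)
    (ε : Fin n → Fin 3) (j : ℤ) :
    Subsingleton ((G.diff (comp k n K (some ε)) k).H ⊤ ⊥ j) := by
  classical
  obtain ⟨N, hN⟩ := FreeCx.exists_pow_kills hG hL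
  refine comp_subsingleton K G ε (fun i => ?_) j
  have hX : (MvPowerSeries.X i : MvPowerSeries (Fin (n + 1)) k) ^ N ∈
      IsLocalRing.maximalIdeal (MvPowerSeries (Fin (n + 1)) k) ^ N := by
    refine Ideal.pow_mem_pow ?_ N
    rw [maximalIdeal_mvPowerSeries]
    exact Ideal.subset_span ⟨i, rfl⟩
  obtain ⟨s, hs⟩ := G.exists_homotopy (hN _ hX) hL
  exact ⟨N * (L + 1), s, by rw [hs, ← pow_mul]⟩

/-- A finite family of killing powers of all variables gives finite-dimensional homology. -/
theorem koszulX_finiteHom (M : Type*) [AddCommGroup M] [Module (MvPowerSeries (Fin (n + 1)) k) M]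
    [Module k M] [IsScalarTower k (MvPowerSeries (Fin (n + 1)) k) M]
    [Module.Finite (MvPowerSeries (Fin (n + 1)) k) M] :
    (FreeCx.koszul (List.ofFn (MvPowerSeries.X :
      Fin (n + 1) → MvPowerSeries (Fin (n + 1)) k))).FiniteHom M k := by
  set z := List.ofFn (MvPowerSeries.X : Fin (n + 1) → MvPowerSeries (Fin (n + 1)) k)
  set I := (FreeCx.koszul z).killIdeal M
  have hle : IsLocalRing.maximalIdeal (MvPowerSeries (Fin (n + 1)) k) ≤ I.radical := by
    rw [maximalIdeal_mvPowerSeries, Ideal.span_le]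
    rintro _ ⟨i, rfl⟩
    exact FreeCx.exists_kills_koszul M z _ (List.mem_ofFn.2 ⟨i, rfl⟩)
  obtain ⟨m, hm⟩ := Ideal.exists_pow_le_of_le_radical_of_fg hle (IsNoetherian.noetherian _)
  have := finite_quot_pow (k := k) (n + 1) m
  exact FreeCx.finiteHom_of_kills _ fun a ha => hm ha

/-- The Koszul complex of the variables has Euler characteristic `n!` on the Segre module. -/
theorem kchi_comp_none (hn : 0 < n) :
    (FreeCx.koszul (List.ofFn (MvPowerSeries.X :
      Fin (n + 1) → MvPowerSeries (Fin (n + 1)) k))).chi (comp k n K none) k =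
        (n.factorial : ℤ) := by
  have := comp_none_finite (k := k) K hn
  refine koszul_chi K hn _ (fun a ha => ?_) List.length_ofFn (koszulX_finiteHom _)
  obtain ⟨i, rfl⟩ := List.mem_ofFn.1 ha
  exact Lin.X i

end Segre

end Vale.Agent.P202
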