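import Vale.Agent.P202.Segre.Defs

/-!
# P202: the Čech differential on covers

`delta` is defined on families indexed by `Cov n` with values in any module; the slice complex in
total degree `t` is `sliceDiff` restricted to `slice t`.
-/

noncomputable section

namespace Vale.Agent.P202.Segre

open Finset

variable {n : ℕ}

/-- Sign of the slot `a`: parity of the number of `2`s strictly before `a`. -/
def slotSgn (ε : Fin n → Fin 3) (a : Fin n) : ℤ :=
  (-1) ^ (univ.filter fun b => b < a ∧ ε b = 2).card

section Operator

variable {R : Type*} [CommRing R] {M : Type*} [AddCommGroup M] [Module R M]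

/-- The two lower neighbours in slot `a`. -/
def lowDiff (f : Cov n → M) (ε : Fin n → Fin 3) (a : Fin n) : M :=
  f (some (Function.update ε a 0)) - f (some (Function.update ε a 1))

/-- Value of the differential. -/
def deltaFun (f : Cov n → M) : Cov n → M
  | none => 0
  | some ε => (if twos n ε = 0 then f none else 0) +
      ∑ a ∈ univ.filter (fun a => ε a = 2), slotSgn ε a • lowDiff f ε a

variable (R M) in
/-- The Čech differential. -/
def delta : (Cov n → M) →ₗ[R] (Cov n → M) where
  toFun := deltaFun
  map_add' f g := by
    funext e
    cases e with
    | none => simp [deltaFun]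
    | some ε =>
      simp only [deltaFun, lowDiff, Pi.add_apply]
      rw [show ((if twos n ε = 0 then f none + g none else 0) : M)
          = (if twos n ε = 0 then f none else 0) + (if twos n ε = 0 then g none else 0) by
        split_ifs <;> simp]
      rw [add_add_add_comm, ← Finset.sum_add_distrib]
      congr 1
      refine Finset.sum_congr rfl fun a _ => ?_
      rw [← smul_add]
      congr 1
      abel
  map_smul' c f := by
    funext e
    cases e with
    | none => simp [deltaFun]
    | some ε =>
      simp only [deltaFun, lowDiff, Pi.smul_apply, RingHom.id_apply, smul_add, Finset.smul_sum,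
        smul_ite, smul_zero]
      congr 1
      refine Finset.sum_congr rfl fun a _ => ?_
      rw [← smul_sub]
      exact smul_comm _ _ _

theorem delta_none (f : Cov n → M) : delta R M f none = 0 := rfl

theorem delta_some (f : Cov n → M) (ε : Fin n → Fin 3) :
    delta R M f (some ε) = (if twos n ε = 0 then f none else 0) +
      ∑ a ∈ univ.filter (fun a => ε a = 2), slotSgn ε a • lowDiff f ε a := rfl

theorem twos_update_of_eq_two {ε : Fin n → Fin 3} {a : Fin n} (h : ε a = 2) {v : Fin 3}
    (hv : v ≠ 2) : twos n (Function.update ε a v) + 1 = twos n ε := by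
  have h1 : (univ.filter fun b => Function.update ε a v b = 2)
      = (univ.filter fun b => ε b = 2).erase a := by
    ext b
    by_cases hb : b = a <;> simp [hb, hv]
  rw [twos, twos, h1, Finset.card_erase_add_one (by simp [h])]

theorem filter_update_of_eq_two {ε : Fin n → Fin 3} {a : Fin n} {v : Fin 3} (hv : v ≠ 2) :
    (univ.filter fun b => Function.update ε a v b = 2) =
      (univ.filter fun b => ε b = 2).erase a := by
  ext b
  by_cases hb : b = a <;> simp [hb, hv]

/-- Replacing an earlier `2` flips the sign of a later slot. -/
theorem slotSgn_update_of_lt {ε : Fin n → Fin 3} {a b : Fin n} (hab : a < b) (ha : ε a = 2)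
    {v : Fin 3} (hv : v ≠ 2) : slotSgn (Function.update ε a v) b = - slotSgn ε b := by
  have h1 : (univ.filter fun c => c < b ∧ Function.update ε a v c = 2)
      = (univ.filter fun c => c < b ∧ ε c = 2).erase a := by
    ext c
    by_cases hc : c = a <;> simp [hc, hv]
  have h2 := Finset.card_erase_add_one (s := univ.filter fun c => c < b ∧ ε c = 2) (a := a)
    (by simp [hab, ha])
  rw [slotSgn, slotSgn, h1, ← h2, pow_succ]
  ring

/-- Replacing a later slot leaves the sign of an earlier one. -/
theorem slotSgn_update_of_le {ε : Fin n → Fin 3} {a b : Fin n} (hab : b ≤ a) (v : Fin 3) :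
    slotSgn (Function.update ε a v) b = slotSgn ε b := by
  have h1 : (univ.filter fun c => c < b ∧ Function.update ε a v c = 2)
      = (univ.filter fun c => c < b ∧ ε c = 2) := by
    ext c
    by_cases hc : c = a
    · subst hc
      simp [not_lt.2 hab]
    · simp [hc]
  rw [slotSgn, slotSgn, h1]

/-- Two applications cancel. -/
theorem delta_delta (f : Cov n → M) : delta R M (delta R M f) = 0 := by
  funext e
  cases e with
  | none => rfl
  | some ε =>
    rw [delta_some, delta_none, ite_self, zero_add, Pi.zero_apply]
    set S := univ.filter fun a => ε a = 2 with hS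
    let W : Fin n → Fin n → M := fun a b =>
      f (some (Function.update (Function.update ε a 0) b 0))
        - f (some (Function.update (Function.update ε a 0) b 1))
        - f (some (Function.update (Function.update ε a 1) b 0))
        + f (some (Function.update (Function.update ε a 1) b 1))
    have key : ∀ a ∈ S, slotSgn ε a • lowDiff (delta R M f) ε a
        = ∑ b ∈ S.erase a, (if a < b then -(slotSgn ε a * slotSgn ε b)
            else slotSgn ε a * slotSgn ε b) • W a b := by
      intro a ha
      have ha2 : ε a = 2 := (Finset.mem_filter.1 ha).2
      have e0 : twos n (Function.update ε a 0) = twos n (Function.update ε a 1) := by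
        have h0 := twos_update_of_eq_two ha2 (v := 0) (by decide)
        have h1 := twos_update_of_eq_two ha2 (v := 1) (by decide)
        omega
      rw [lowDiff, delta_some, delta_some, e0, add_sub_add_left_eq_sub,
        filter_update_of_eq_two (by decide), filter_update_of_eq_two (by decide),
        ← Finset.sum_sub_distrib, Finset.smul_sum, ← hS]
      refine Finset.sum_congr rfl fun b hb => ?_
      have hba : b ≠ a := Finset.ne_of_mem_erase hb
      by_cases hlt : a < b
      · rw [slotSgn_update_of_lt hlt ha2 (by decide), slotSgn_update_of_lt hlt ha2 (by decide),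
          if_pos hlt]
        simp only [lowDiff, W]
        module
      · rw [slotSgn_update_of_le (not_lt.1 hlt), slotSgn_update_of_le (not_lt.1 hlt), if_neg hlt]
        simp only [lowDiff, W]
        module
    rw [Finset.sum_congr rfl key, Finset.sum_sigma']
    refine Finset.sum_involution (fun p _ => ⟨p.2, p.1⟩) ?_ ?_ ?_ ?_
    · rintro ⟨a, b⟩ hp
      simp only [Finset.mem_sigma, Finset.mem_erase] at hp
      have hne : a ≠ b := Ne.symm hp.2.1
      have hW : W b a = W a b := by
        simp only [W, Function.update_comm hne]
        abel
      simp only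
      rw [hW]
      rcases lt_or_gt_of_ne hne with h | h
      · rw [if_pos h, if_neg (not_lt.2 h.le)]
        module
      · rw [if_neg (not_lt.2 h.le), if_pos h]
        module
    · rintro ⟨a, b⟩ hp _
      simp only [Finset.mem_sigma, Finset.mem_erase] at hp
      simp only [ne_eq, Sigma.mk.injEq, not_and]
      intro h
      exact absurd h hp.2.1
    · rintro ⟨a, b⟩ hp
      simp only [Finset.mem_sigma, Finset.mem_erase] at hp ⊢
      exact ⟨hp.2.2, Ne.symm hp.2.1, hp.1⟩
    · rintro ⟨a, b⟩ _
      rfl

theorem delta_apply_eq_zero (f : Cov n → M) (a : ℕ)
    (hf : ∀ e, cdeg n e ≠ a → f e = 0) : ∀ e, cdeg n e ≠ a + 1 → delta R M f e = 0 := by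
  intro e he
  cases e with
  | none => rfl
  | some ε =>
    simp only [cdeg] at he
    rw [delta_some]
    have h1 : (if twos n ε = 0 then f none else 0) = 0 := by
      split_ifs with h
      · exact hf none (by simp only [cdeg]; omega)
      · rfl
    rw [h1, zero_add]
    refine Finset.sum_eq_zero fun b hb => ?_
    have hb2 : ε b = 2 := (Finset.mem_filter.1 hb).2
    have t0 := twos_update_of_eq_two hb2 (v := 0) (by decide)
    have t1 := twos_update_of_eq_two hb2 (v := 1) (by decide)
    rw [lowDiff, hf _ (by simp only [cdeg]; omega), hf _ (by simp only [cdeg]; omega)]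
    simp

end Operator

section Slices

variable (k : Type*) [Field k] (n : ℕ) (K : ℕ)

/-- The slice complex: families of coefficients, position `-cdeg`. -/
def sliceDiff : Diff k (Cov n → Coef k n) where
  d := delta k (Coef k n)
  deg j :=
    { carrier := {f | ∀ e, -(cdeg n e : ℤ) ≠ j → f e = 0}
      add_mem' := by
        intro f f' hf hf' e he
        simp [hf e he, hf' e he]
      zero_mem' := by
        intro e _
        rfl
      smul_mem' := by
        intro c f hf e he
        simp [hf e he] }
  d_d := delta_delta
  d_deg := by
    intro j f hf e he
    by_cases h : ∃ a : ℕ, -(a : ℤ) = j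
    · obtain ⟨a, ha⟩ := h
      exact delta_apply_eq_zero f a (fun e' he' => hf e' (by omega)) e (by omega)
    · have : f = 0 := funext fun e' => hf e' fun hh => h ⟨_, hh⟩
      simp [this]

/-- Families with allowed monomials in total degree `t`. -/
def slice (t : ℤ) : Submodule k (Cov n → Coef k n) where
  carrier := {f | ∀ e α, (f e).coeff α ≠ 0 → allowed n K t α e}
  add_mem' := by
    intro f f' hf hf' e α h
    simp only [Pi.add_apply, AddMonoidAlgebra.coeff_add, Finsupp.add_apply] at h
    by_cases h1 : (f e).coeff α = 0
    · exact hf' e α (by simpa [h1] using h)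
    · exact hf e α h1
  zero_mem' := by
    intro e α h
    simp at h
  smul_mem' := by
    intro c f hf e α h
    simp only [Pi.smul_apply, AddMonoidAlgebra.coeff_smul, Finsupp.smul_apply, smul_eq_mul] at h
    exact hf e α fun h0 => h (by simp [h0])

end Slices

end Vale.Agent.P202.Segre
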