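import Vale.Agent.P202.Segre.Defs

/-!
# P202: the action of power series on the Segre model, and the stable components
-/

noncomputable section

namespace Vale.Agent.P202.Segre

open Finset

variable (k : Type*) [Field k] (n K : ℕ)

/-- A coefficient supported in the box `[0, s]^n`. -/
def InBox (s : ℕ) (c : Coef k n) : Prop :=
  ∀ α, c.coeff α ≠ 0 → ∀ a, 0 ≤ α a ∧ α a ≤ (s : ℤ)

variable {k n}

theorem coef_mul_ne {x y : Coef k n} {γ : Fin n → ℤ} (h : (x * y).coeff γ ≠ 0) :
    ∃ α β, x.coeff α ≠ 0 ∧ y.coeff β ≠ 0 ∧ α + β = γ := by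
  classical
  rw [AddMonoidAlgebra.coeff_mul] at h
  obtain ⟨α, hα, h⟩ := Finset.exists_ne_zero_of_sum_ne_zero h
  obtain ⟨β, hβ, h⟩ := Finset.exists_ne_zero_of_sum_ne_zero h
  refine ⟨α, β, Finsupp.mem_support_iff.1 hα, Finsupp.mem_support_iff.1 hβ, ?_⟩
  by_contra hne
  exact h (by simp [hne])

theorem InBox.zero (s : ℕ) : InBox k n s 0 := fun α h => absurd (by simp) h

theorem InBox.add {s : ℕ} {x y : Coef k n} (hx : InBox k n s x) (hy : InBox k n s y) :
    InBox k n s (x + y) := fun α h => by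
  by_cases h1 : x.coeff α = 0
  · exact hy α fun h2 => h (by simp [h1, h2])
  · exact hx α h1

theorem InBox.mul {s t : ℕ} {x y : Coef k n} (hx : InBox k n s x) (hy : InBox k n t y) :
    InBox k n (s + t) (x * y) := fun γ h => by
  obtain ⟨α, β, hα, hβ, rfl⟩ := coef_mul_ne h
  intro a
  have h1 := hx α hα a
  have h2 := hy β hβ a
  simp only [Pi.add_apply, Nat.cast_add]
  omega

theorem InBox.smul {s : ℕ} {x : Coef k n} (hx : InBox k n s x) (c : k) : InBox k n s (c • x) :=
  fun α h => hx α fun h0 => h (by simp [h0])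

theorem InBox.algebraMap (c : k) : InBox k n 0 (algebraMap k (Coef k n) c) := fun α h => by
  classical
  rw [AddMonoidAlgebra.coe_algebraMap, Function.comp_apply, AddMonoidAlgebra.coeff_single,
    Finsupp.single_apply] at h
  split_ifs at h with e
  · subst e; simp
  · exact absurd rfl h

theorem inBox_esym (j : ℕ) : InBox k n 1 (esym k n j) := by
  unfold esym
  refine Finset.sum_induction _ (InBox k n 1) (fun _ _ => InBox.add) (InBox.zero 1) fun s _ => ?_
  intro α h
  classical
  rw [AddMonoidAlgebra.coeff_single, Finsupp.single_apply] at h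
  split_ifs at h with e
  · subst e
    intro a
    simp only
    split_ifs <;> simp
  · exact absurd rfl h

variable (k n)

/-- Power series whose coefficient in degree `s` is supported in `[0, s]^n`. -/
def boxSeries : Subalgebra k (PowerSeries (Coef k n)) where
  carrier := {F | ∀ s, InBox k n s (PowerSeries.coeff s F)}
  mul_mem' {F G} hF hG s := by
    rw [PowerSeries.coeff_mul]
    refine Finset.sum_induction _ (InBox k n s) (fun _ _ => InBox.add) (InBox.zero s) fun p hp => ?_
    have e := Finset.HasAntidiagonal.mem_antidiagonal.1 hp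
    rw [← e]
    exact (hF p.1).mul (hG p.2)
  add_mem' {F G} hF hG s := by rw [map_add]; exact (hF s).add (hG s)
  algebraMap_mem' c s := by
    rw [PowerSeries.algebraMap_apply, PowerSeries.coeff_C]
    split_ifs with e
    · subst e; exact InBox.algebraMap c
    · exact InBox.zero s

theorem xImg_mem_box (j : Fin (n + 1)) : xImg k n j ∈ boxSeries k n := fun s => by
  rw [xImg, PowerSeries.coeff_C_mul, PowerSeries.coeff_X]
  split_ifs with e
  · subst e; rw [mul_one]; exact inBox_esym _
  · rw [mul_zero]; exact InBox.zero s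

theorem toSeries_mem_box (f : MvPowerSeries (Fin (n + 1)) k) : toSeries k n f ∈ boxSeries k n := by
  intro s
  show InBox k n s (MvPowerSeries.coeff (Finsupp.single () s)
    (MvPowerSeries.substAlgHom (hasSubst_xImg k n) f))
  rw [MvPowerSeries.coe_substAlgHom, MvPowerSeries.coeff_subst (hasSubst_xImg k n)]
  refine finsum_induction (InBox k n s) (InBox.zero s) (fun _ _ => InBox.add) fun d => ?_
  refine InBox.smul ?_ _
  exact ((boxSeries k n).prod_mem fun j _ =>
    (boxSeries k n).pow_mem (xImg_mem_box k n j) _ :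
      (d.prod fun j e => xImg k n j ^ e) ∈ boxSeries k n) s

theorem toSeries_C (c : k) :
    toSeries k n (MvPowerSeries.C c) = PowerSeries.C (algebraMap k (Coef k n) c) := by
  show MvPowerSeries.substAlgHom (hasSubst_xImg k n) (algebraMap k _ c) = _
  rw [AlgHom.commutes, MvPowerSeries.algebraMap_apply]
  rfl

theorem segreHom_C (c : k) :
    segreHom k n (MvPowerSeries.C c) = HahnSeries.C (algebraMap k (Coef k n) c) := by
  show HahnSeries.ofPowerSeries ℤ _ (toSeries k n _) = _
  rw [toSeries_C, HahnSeries.ofPowerSeries_C]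

theorem lam_smul_eq (c : k) (y : Lam k n) :
    c • y = HahnSeries.C (algebraMap k (Coef k n) c) * y := by
  ext t α
  rw [HahnSeries.C_mul_eq_smul]
  simp [Algebra.smul_def]

theorem smul_def (f : MvPowerSeries (Fin (n + 1)) k) (g : Lam k n) :
    f • g = segreHom k n f * g := rfl

theorem algebraMap_eq (f : MvPowerSeries (Fin (n + 1)) k) :
    algebraMap (MvPowerSeries (Fin (n + 1)) k) (Lam k n) f = segreHom k n f := rfl

instance tower : IsScalarTower k (MvPowerSeries (Fin (n + 1)) k) (Lam k n) where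
  smul_assoc c f g := by
    rw [smul_def, smul_def, lam_smul_eq, MvPowerSeries.smul_eq_C_mul, map_mul, segreHom_C,
      mul_assoc]

theorem segreHom_X (j : Fin (n + 1)) :
    segreHom k n (MvPowerSeries.X j) = HahnSeries.single (1 : ℤ) (esym k n j) := by
  show HahnSeries.ofPowerSeries ℤ _ (MvPowerSeries.substAlgHom (hasSubst_xImg k n) _) = _
  rw [MvPowerSeries.substAlgHom_X, xImg, map_mul, HahnSeries.ofPowerSeries_C,
    HahnSeries.ofPowerSeries_X, HahnSeries.C_apply, HahnSeries.single_mul_single, zero_add, mul_one]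

theorem segreHom_coeff_nat (f : MvPowerSeries (Fin (n + 1)) k) (s : ℕ) :
    (segreHom k n f).coeff (s : ℤ) = PowerSeries.coeff s (toSeries k n f) :=
  HahnSeries.ofPowerSeries_apply_coeff _ _

theorem segreHom_coeff_neg (f : MvPowerSeries (Fin (n + 1)) k) {t : ℤ} (ht : t < 0) :
    (segreHom k n f).coeff t = 0 := by
  show (HahnSeries.ofPowerSeries ℤ _ (toSeries k n f)).coeff t = 0
  rw [HahnSeries.ofPowerSeries_apply]
  refine HahnSeries.embDomain_of_notMem_range ?_
  rintro ⟨s, rfl⟩
  simp at ht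
  omega

theorem constantCoeff_toSeries {f : MvPowerSeries (Fin (n + 1)) k}
    (hf : MvPowerSeries.constantCoeff f = 0) :
    PowerSeries.constantCoeff (toSeries k n f) = 0 := by
  show MvPowerSeries.constantCoeff (MvPowerSeries.substAlgHom (hasSubst_xImg k n) f) = 0
  rw [MvPowerSeries.coe_substAlgHom]
  refine MvPowerSeries.constantCoeff_subst_eq_zero (hasSubst_xImg k n) (fun j => ?_) hf
  simp [xImg, PowerSeries.X, PowerSeries.C]

theorem X_pow_dvd_toSeries {K : ℕ} {f : MvPowerSeries (Fin (n + 1)) k}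
    (hf : f ∈ IsLocalRing.maximalIdeal (MvPowerSeries (Fin (n + 1)) k) ^ K) :
    PowerSeries.X ^ K ∣ toSeries k n f := by
  have h : Ideal.map (toSeries k n) (IsLocalRing.maximalIdeal (MvPowerSeries (Fin (n + 1)) k)) ≤
      Ideal.span {PowerSeries.X} := by
    rw [Ideal.map_le_iff_le_comap]
    intro g hg
    rw [Ideal.mem_comap, Ideal.mem_span_singleton, PowerSeries.X_dvd_iff]
    refine constantCoeff_toSeries k n ?_
    by_contra h0
    exact (IsLocalRing.mem_maximalIdeal g).1 hg
      (MvPowerSeries.isUnit_iff_constantCoeff.2 (isUnit_iff_ne_zero.2 h0))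
  have h2 := Ideal.mem_map_of_mem (toSeries k n) hf
  rw [Ideal.map_pow] at h2
  have h3 := Ideal.pow_right_mono h K h2
  rwa [Ideal.span_singleton_pow, Ideal.mem_span_singleton] at h3

variable {k n}

theorem smul_coeff_ne {f : MvPowerSeries (Fin (n + 1)) k} {g : Lam k n} {t : ℤ}
    {γ : Fin n → ℤ} (h : ((f • g).coeff t).coeff γ ≠ 0) :
    ∃ (s : ℕ) (β : Fin n → ℤ), (PowerSeries.coeff s (toSeries k n f)).coeff β ≠ 0 ∧
      (∀ a, 0 ≤ β a ∧ β a ≤ (s : ℤ)) ∧ (g.coeff (t - s)).coeff (γ - β) ≠ 0 := by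
  rw [smul_def, HahnSeries.coeff_mul, AddMonoidAlgebra.coeff_sum, Finsupp.finsetSum_apply] at h
  obtain ⟨ij, hij, h⟩ := Finset.exists_ne_zero_of_sum_ne_zero h
  have hsum : ij.1 + ij.2 = t := by
    exact (Finset.mem_antidiagonal.1 hij).2.2
  obtain ⟨α, β, hα, hβ, rfl⟩ := coef_mul_ne h
  rcases lt_or_ge ij.1 0 with hlt | hge
  · rw [segreHom_coeff_neg k n f hlt] at hα
    simp at hα
  obtain ⟨s, hs⟩ := Int.eq_ofNat_of_zero_le hge
  rw [hs, segreHom_coeff_nat] at hα
  refine ⟨s, α, hα, toSeries_mem_box k n f s α hα, ?_⟩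
  rw [show t - (s : ℤ) = ij.2 by omega, add_sub_cancel_left]
  exact hβ

/-- An element of `m^K` raises every lower degree bound by `K`. -/
theorem smul_coeff_eq_zero {f : MvPowerSeries (Fin (n + 1)) k} {K : ℕ}
    (hf : f ∈ IsLocalRing.maximalIdeal (MvPowerSeries (Fin (n + 1)) k) ^ K) {g : Lam k n} {lo : ℤ}
    (hg : ∀ t ≤ lo, g.coeff t = 0) {t : ℤ} (ht : t ≤ lo + K) : (f • g).coeff t = 0 := by
  by_contra h
  obtain ⟨γ, hγ⟩ : ∃ γ, ((f • g).coeff t).coeff γ ≠ 0 := by
    by_contra hne
    push Not at hne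
    exact h (AddMonoidAlgebra.ext (Finsupp.ext fun γ => by simp [hne γ]))
  obtain ⟨s, β, hs, -, hg'⟩ := smul_coeff_ne hγ
  rcases lt_or_ge s K with hlt | hge
  · rw [PowerSeries.X_pow_dvd_iff.1 (X_pow_dvd_toSeries k n hf) s hlt] at hs
    simp at hs
  · rw [hg (t - s) (by omega)] at hg'
    simp at hg'

theorem allowed_add {n K : ℕ} {t : ℤ} {s : ℕ} {α β : Fin n → ℤ} {ε : Cov n}
    (h : allowed n K t α ε) (hβ : ∀ a, 0 ≤ β a ∧ β a ≤ (s : ℤ)) :
    allowed n K (t + s) (α + β) ε := by
  cases ε with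
  | none =>
      intro a
      have h1 := h a
      have h2 := hβ a
      simp only [Pi.add_apply]
      omega
  | some ε =>
      intro a
      have h1 := h a
      have h2 := hβ a
      simp only [Pi.add_apply]
      exact ⟨fun e => by have := h1.1 e; omega, fun e => by have := h1.2 e; omega⟩

variable (k n)

/-- A component of the Segre model. -/
def comp (ε : Cov n) : Submodule (MvPowerSeries (Fin (n + 1)) k) (Lam k n) where
  carrier := compSet k n K ε
  add_mem' {f g} hf hg t α h := by
    by_cases h1 : (f.coeff t).coeff α = 0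
    · exact hg t α fun h2 => h (by simp [h1, h2])
    · exact hf t α h1
  zero_mem' t α h := absurd (by simp) h
  smul_mem' f g hg t γ h := by
    obtain ⟨s, β, -, hβ, h'⟩ := smul_coeff_ne h
    have := allowed_add (hg _ _ h') hβ
    rwa [sub_add_cancel, sub_add_cancel] at this

theorem mem_comp {ε : Cov n} {f : Lam k n} :
    f ∈ comp k n K ε ↔ ∀ t α, (f.coeff t).coeff α ≠ 0 → allowed n K t α ε := Iff.rfl

end Vale.Agent.P202.Segre
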