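import Vale.Agent.P202.Segre.Scalar

/-!
# P202: homology of the slice complex in one total degree
-/

noncomputable section

namespace Vale.Agent.P202.Segre

open Finset

/-! ### A differential module with a contraction -/

/-- A contraction identifies homology with the image of the projection. -/
def homEquivOfContraction {k M : Type*} [CommRing k] [AddCommGroup M] [Module k M] (D : Diff k M)
    (X : Submodule k M) (j : ℤ) (h P : M →ₗ[k] M)
    (hP : ∀ x ∈ X ⊓ D.deg j, P x ∈ X ⊓ D.deg j)
    (hh : ∀ x ∈ X ⊓ D.deg j, h x ∈ X ⊓ D.deg (j + 1))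
    (hid : ∀ x ∈ X ⊓ D.deg j, D.d (h x) + h (D.d x) + P x = x)
    (hPd : ∀ x ∈ X ⊓ D.deg (j + 1), P (D.d x) = 0)
    (hdP : ∀ x ∈ X ⊓ D.deg j, D.d (P x) = 0)
    (hPP : ∀ x ∈ X ⊓ D.deg j, P (P x) = P x) :
    D.H X ⊥ j ≃ₗ[k] (X ⊓ D.deg j).map P := by
  let Q : D.cycles X ⊥ j →ₗ[k] (X ⊓ D.deg j).map P :=
    (P.comp (D.cycles X ⊥ j).subtype).codRestrict _ fun x =>
      Submodule.mem_map_of_mem x.2.1
  have hsurj : Function.Surjective Q := by
    rintro ⟨_, x, hx, rfl⟩
    refine ⟨⟨P x, hP x hx, ?_⟩, Subtype.ext (hPP x hx)⟩
    show D.d (P x) ∈ (⊥ : Submodule k M)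
    simpa using hdP x hx
  have hker : LinearMap.ker Q = (D.bdries X ⊥ j).comap (D.cycles X ⊥ j).subtype := by
    ext ⟨x, hx, hdx⟩
    have hdx' : D.d x = 0 := by simpa using hdx
    simp only [LinearMap.mem_ker, Submodule.mem_comap, Submodule.coe_subtype, Diff.bdries,
      bot_inf_eq, sup_bot_eq, Submodule.mem_map]
    constructor
    · intro h0
      have h0' : P x = 0 := congrArg Subtype.val h0
      refine ⟨h x, hh x hx, ?_⟩
      have := hid x hx
      rw [hdx', map_zero, h0', add_zero, add_zero] at this
      exact this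
    · rintro ⟨y, hy, rfl⟩
      exact Subtype.ext (hPd y hy)
  exact (Submodule.quotEquivOfEq _ _ hker.symm).trans (Q.quotKerEquivOfSurjective hsurj)

/-! ### Coefficientwise operators -/

variable (k : Type*) [Field k] (n K : ℕ)

/-- The value at one monomial. -/
def coefA (α : Fin n → ℤ) : (Cov n → Coef k n) →ₗ[k] (Cov n → k) where
  toFun f e := (f e).coeff α
  map_add' f g := by funext e; simp
  map_smul' c f := by funext e; simp

variable {k n}

theorem coefA_ext {f g : Cov n → Coef k n} (h : ∀ α, coefA k n α f = coefA k n α g) : f = g :=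
  funext fun e => AddMonoidAlgebra.ext (Finsupp.ext fun α => congrFun (h α) e)

/-- Apply an operator monomial by monomial. -/
def liftA (L : (Fin n → ℤ) → ((Cov n → k) →ₗ[k] (Cov n → k))) :
    (Cov n → Coef k n) →ₗ[k] (Cov n → Coef k n) where
  toFun f e := AddMonoidAlgebra.ofCoeff <|
    Finsupp.onFinset (Finset.univ.biUnion fun e' => (f e').coeff.support)
      (fun α => L α (coefA k n α f) e) fun α hα => by
        by_contra hne
        apply hα
        rw [show coefA k n α f = 0 from funext fun e' => by
          by_contra h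
          exact hne (Finset.mem_biUnion.2 ⟨e', Finset.mem_univ _, Finsupp.mem_support_iff.2 h⟩),
          map_zero]
        rfl
  map_add' f g := by
    funext e
    refine AddMonoidAlgebra.ext (Finsupp.ext fun α => ?_)
    simp [Finsupp.onFinset_apply]
  map_smul' c f := by
    funext e
    refine AddMonoidAlgebra.ext (Finsupp.ext fun α => ?_)
    simp [Finsupp.onFinset_apply]

theorem coefA_liftA (L : (Fin n → ℤ) → ((Cov n → k) →ₗ[k] (Cov n → k))) (α : Fin n → ℤ)
    (f : Cov n → Coef k n) : coefA k n α (liftA L f) = L α (coefA k n α f) := by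
  funext e
  simp [liftA, coefA, Finsupp.onFinset_apply]

/-! ### Agreement of the two forms of the differential -/

theorem slotSgn_cons_zero (i : Fin 3) (e : Chart n) : slotSgn (Fin.cons i e) 0 = 1 := by
  simp [slotSgn]

theorem slotSgn_cons_succ (i : Fin 3) (e : Chart n) (b : Fin n) :
    slotSgn (Fin.cons i e) b.succ = (if i = 2 then -1 else 1) * slotSgn e b := by
  simp only [slotSgn, Finset.card_filter, Fin.sum_univ_succ, Fin.cons_zero, Fin.cons_succ,
    Fin.succ_pos, true_and, Fin.succ_lt_succ_iff, pow_add]
  split_ifs <;> simp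

theorem dE_apply : ∀ n (g : Chart n → k) (e : Chart n),
    dE k n g e = ∑ a ∈ univ.filter (fun a => e a = 2),
      slotSgn e a • (g (Function.update e a 0) - g (Function.update e a 1))
  | 0, g, e => by
      rw [Finset.sum_eq_zero fun a _ => a.elim0]
      simp [dE]
  | n + 1, g, e => by
      obtain ⟨i, e', rfl⟩ : ∃ i e', e = Fin.cons i e' := ⟨_, _, (Fin.cons_self_tail e).symm⟩
      have hr := fun j => dE_apply n (sliceL k n j g) e'
      rw [Finset.sum_filter, Fin.sum_univ_succ]
      simp only [Fin.cons_zero, Fin.cons_succ, slotSgn_cons_zero, slotSgn_cons_succ, one_smul,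
        Fin.update_cons_zero, ← Fin.cons_update]
      show (glueL _ _ _ g) (Fin.cons i e') = _
      match i with
      | 0 =>
          show dE k n (sliceL k n 0 g) e' = _
          rw [hr, Finset.sum_filter, if_neg (by decide), zero_add]
          refine Finset.sum_congr rfl fun a _ => ?_
          simp [sliceL, LinearMap.funLeft]
      | 1 =>
          show dE k n (sliceL k n 1 g) e' = _
          rw [hr, Finset.sum_filter, if_neg (by decide), zero_add]
          refine Finset.sum_congr rfl fun a _ => ?_
          simp [sliceL, LinearMap.funLeft]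
      | 2 =>
          show sliceL k n 0 g e' - sliceL k n 1 g e' - dE k n (sliceL k n 2 g) e' = _
          rw [hr, Finset.sum_filter, sub_eq_add_neg (sliceL k n 0 g e' - sliceL k n 1 g e'),
            ← Finset.sum_neg_distrib, if_pos rfl, if_pos rfl]
          congr 1
          refine Finset.sum_congr rfl fun a _ => ?_
          split_ifs
          · simp [sliceL, LinearMap.funLeft]
          · simp

theorem iota_apply (e : Chart n) : iota k n e = if twos n e = 0 then 1 else 0 := by
  have : harm (fun _ => true) (fun _ => true) e ↔ twos n e = 0 := by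
    simp [harm, twos, Finset.filter_eq_empty_iff]
  simp [iota, vE, this]

theorem delta_eq_dC (f : Cov n → k) : delta k k f = dC k n f := by
  funext e
  cases e with
  | none => rfl
  | some e =>
      rw [delta_some]
      show _ = f none • iota k n e + dE k n (someL k n f) e
      rw [dE_apply, iota_apply]
      simp [lowDiff, someL, LinearMap.funLeft]

theorem coefA_delta (α : Fin n → ℤ) (f : Cov n → Coef k n) :
    coefA k n α (delta k (Coef k n) f) = dC k n (coefA k n α f) := by
  rw [← delta_eq_dC]
  funext e
  cases e with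
  | none => rfl
  | some e =>
      show (delta k (Coef k n) f (some e)).coeff α = _
      simp only [delta_some, lowDiff, AddMonoidAlgebra.coeff_add, Finsupp.add_apply,
        AddMonoidAlgebra.coeff_sum, Finsupp.finsetSum_apply]
      congr 1
      split_ifs <;> simp [coefA]

/-! ### Allowed indices -/

variable (n) in
/-- `u` alone may be inverted. -/
def c0T (t : ℤ) (α : Fin n → ℤ) : Fin n → Bool := fun a => decide (α a ≤ t + shift n K a)

variable (n) in
/-- `v` alone may be inverted. -/
def c1T (α : Fin n → ℤ) : Fin n → Bool := fun a => decide (0 ≤ α a)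

theorem okC_iff (t : ℤ) (α : Fin n → ℤ) (e : Cov n) :
    okC (c0T n K t α) (c1T n α) e ↔ allowed n K t α e := by
  cases e with
  | none =>
      simp only [okC, allowed, c0T, c1T, decide_eq_true_eq]
      exact forall_congr' fun a => and_comm
  | some e => simp [okC, okE, allowed, c0T, c1T]

theorem supC_of_slice {t : ℤ} {f : Cov n → Coef k n} (hf : f ∈ slice k n K t) (α : Fin n → ℤ) :
    SupC (c0T n K t α) (c1T n α) (coefA k n α f) :=
  fun e he => (okC_iff K t α e).2 (hf e α he)

theorem mem_slice_of_supC {t : ℤ} {f : Cov n → Coef k n}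
    (hf : ∀ α, SupC (c0T n K t α) (c1T n α) (coefA k n α f)) : f ∈ slice k n K t :=
  fun e α h => (okC_iff K t α e).1 (hf α e h)

theorem grC_of_deg {j : ℤ} {f : Cov n → Coef k n} (hf : f ∈ (sliceDiff k n).deg j)
    (α : Fin n → ℤ) : GrC (-j) (coefA k n α f) := fun e he => by
  by_contra hne
  exact he (by simp [coefA, hf e fun h => hne (by omega)])

theorem deg_of_grC {j : ℤ} {f : Cov n → Coef k n} (hf : ∀ α, GrC (-j) (coefA k n α f)) :
    f ∈ (sliceDiff k n).deg j := fun e he => by
  refine AddMonoidAlgebra.ext (Finsupp.ext fun α => ?_)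
  by_contra hne
  exact he (by have := hf α e hne; omega)

variable (k n) in
/-- The contraction of a slice. -/
def hS (t : ℤ) : (Cov n → Coef k n) →ₗ[k] (Cov n → Coef k n) :=
  liftA fun α => hC k n (c0T n K t α) (c1T n α)

variable (k n) in
/-- The projection of a slice. -/
def pS (t : ℤ) : (Cov n → Coef k n) →ₗ[k] (Cov n → Coef k n) :=
  liftA fun α => pC k n (c0T n K t α) (c1T n α)

/-! ### The harmonic monomials -/

variable (n) in
/-- Monomials of the harmonic part in degree `t`. -/
def pat (t : ℤ) : Finset (Fin n → ℤ) :=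
  Fintype.piFinset fun a : Fin n =>
    if 0 < t + (a.val : ℤ) * K then Finset.Icc 0 (t + shift n K a)
    else Finset.Ioo (t + shift n K a) 0

variable (n) in
/-- The number of factors in negative degree. -/
def negCount (t : ℤ) : ℕ := (univ.filter fun a : Fin n => t + (a.val : ℤ) * K ≤ -1).card

theorem lt_negCount_iff (t : ℤ) (b : Fin n) :
    b.val < negCount n K t ↔ t + (b.val : ℤ) * K ≤ -1 := by
  have hdown : ∀ a c : Fin n, a ≤ c → t + (c.val : ℤ) * K ≤ -1 → t + (a.val : ℤ) * K ≤ -1 := by
    intro a c hac hc
    have : (a.val : ℤ) * K ≤ (c.val : ℤ) * K :=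
      mul_le_mul_of_nonneg_right (by exact_mod_cast hac) (by positivity)
    omega
  constructor
  · intro hb
    by_contra hne
    have : (univ.filter fun a : Fin n => t + (a.val : ℤ) * K ≤ -1) ⊆ Finset.Iio b := fun a ha => by
      rw [Finset.mem_Iio]
      by_contra hle
      exact hne (hdown b a (not_lt.1 hle) (Finset.mem_filter.1 ha).2)
    have := Finset.card_le_card this
    simp [negCount] at hb this
    omega
  · intro hb
    have : Finset.Iic b ⊆ univ.filter fun a : Fin n => t + (a.val : ℤ) * K ≤ -1 := fun a ha =>
      Finset.mem_filter.2 ⟨Finset.mem_univ _, hdown a b (Finset.mem_Iic.1 ha) hb⟩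
    have := Finset.card_le_card this
    simp [negCount] at this ⊢
    omega

theorem mem_pat {t : ℤ} {α : Fin n → ℤ} :
    α ∈ pat n K t ↔ ∀ a, c0T n K t α a = c1T n α a := by
  simp only [pat, Fintype.mem_piFinset]
  refine forall_congr' fun a => ?_
  simp only [c0T, c1T]
  rw [decide_eq_decide]
  simp only [shift]
  split_ifs with h <;> simp only [Finset.mem_Icc, Finset.mem_Ioo] <;> omega

theorem pat_both_iff {t : ℤ} {α : Fin n → ℤ} (hα : α ∈ pat n K t) (a : Fin n) :
    (c0T n K t α a && c1T n α a) = decide (¬ t + (a.val : ℤ) * K ≤ -1) := by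
  have h1 := (mem_pat K).1 hα a
  simp only [c0T, c1T] at h1 ⊢
  rw [decide_eq_decide] at h1
  rw [← Bool.decide_and, decide_eq_decide]
  simp only [shift] at h1 ⊢
  omega

theorem card_pat (t : ℤ) : ((pat n K t).card : ℤ) =
    (-1) ^ negCount n K t * pFun n K t := by
  have hneg : ((-1 : ℤ)) ^ negCount n K t =
      ∏ a : Fin n, (if t + (a.val : ℤ) * K ≤ -1 then (-1 : ℤ) else 1) := by
    rw [negCount, Finset.prod_ite, Finset.prod_const, Finset.prod_const_one, mul_one]
  rw [hneg, pFun, ← Finset.prod_mul_distrib, pat, Fintype.card_piFinset, Nat.cast_prod]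
  refine Finset.prod_congr rfl fun a _ => ?_
  simp only [shift]
  split_ifs <;> simp only [Int.card_Icc, Int.card_Ioo] <;> omega

theorem not_allBoth {t : ℤ} {α : Fin n → ℤ} (hα : α ∈ pat n K t) (hp : negCount n K t ≠ 0) :
    ¬ ∀ a, c0T n K t α a = true ∧ c1T n α a = true := by
  intro hall
  obtain ⟨a, ha⟩ := Finset.card_ne_zero.1 hp
  have h1 := pat_both_iff K hα a
  rw [(hall a).1, (hall a).2] at h1
  simp at h1
  exact absurd (Finset.mem_filter.1 ha).2 (by omega)

theorem pC_coef_eq_zero {t : ℤ} {α : Fin n → ℤ} (h : ¬ (α ∈ pat n K t ∧ negCount n K t ≠ 0))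
    (g : Cov n → k) : pC k n (c0T n K t α) (c1T n α) g = 0 := by
  refine ext_cov (by simp [pC]) ?_
  by_cases hb : ∀ a, c0T n K t α a = true ∧ c1T n α a = true
  · simp [pC, hb]
  · have hne : ∃ a, c0T n K t α a ≠ c1T n α a := by
      by_contra hall
      push Not at hall
      have hα : α ∈ pat n K t := (mem_pat K).2 hall
      apply h
      refine ⟨hα, fun h0 => hb fun a => ?_⟩
      have h1 := pat_both_iff K hα a
      have h2 : ¬ t + (a.val : ℤ) * K ≤ -1 := fun hle => by
        have := (lt_negCount_iff K t a).2 hle
        omega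
      simp only [h2, not_false_iff, decide_true, Bool.and_eq_true] at h1
      exact h1
    simp [pC, hb, pE_eq_zero n _ _ hne]

theorem pC_coef_eq {t : ℤ} {α : Fin n → ℤ} (hα : α ∈ pat n K t) (hp : negCount n K t ≠ 0)
    (g : Cov n → k) : someL k n (pC k n (c0T n K t α) (c1T n α) g) =
      g (some (star (c0T n K t α) (c1T n α))) • vE k (c0T n K t α) (c1T n α) := by
  simp only [pC, if_neg (not_allBoth K hα hp), someL_optL, LinearMap.comp_apply]
  exact pE_eq n _ _ ((mem_pat K).1 hα) _

theorem twos_harm {t : ℤ} {α : Fin n → ℤ} (hα : α ∈ pat n K t) {e : Chart n}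
    (he : harm (c0T n K t α) (c1T n α) e) : twos n e = negCount n K t := by
  unfold twos negCount
  refine congrArg Finset.card (Finset.filter_congr fun a _ => ?_)
  have h1 := he a
  rw [pat_both_iff K hα a] at h1
  by_cases h : t + (a.val : ℤ) * K ≤ -1 <;> simp [h] at h1 ⊢ <;> exact h1

theorem harm_star (c0 c1 : Fin n → Bool) : harm c0 c1 (star c0 c1) := fun a => by
  unfold star; split_ifs <;> simp

theorem vE_star (c0 c1 : Fin n → Bool) : vE k c0 c1 (star c0 c1) = 1 := by
  simp [vE, harm_star]

variable (n) in
/-- Monomials of the harmonic part in degree `t` and position `j`. -/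
def patJ (t j : ℤ) : Finset (Fin n → ℤ) :=
  if negCount n K t ≠ 0 ∧ j = -((negCount n K t : ℤ) + 1) then pat n K t else ∅

/-! ### The homology of a slice -/

variable (k n)

/-- The homology of a slice is the space of functions on its harmonic monomials. -/
def sliceHomEquiv (t j : ℤ) :
    (sliceDiff k n).H (slice k n K t) ⊥ j ≃ₗ[k] (patJ n K t j → k) := by
  set X := slice k n K t
  set D := sliceDiff k n
  have hP : ∀ x ∈ X ⊓ D.deg j, pS k n K t x ∈ X ⊓ D.deg j := fun x hx =>
    ⟨mem_slice_of_supC K fun α => by
        rw [pS, coefA_liftA]; exact supC_pC (supC_of_slice K hx.1 α),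
      deg_of_grC fun α => by rw [pS, coefA_liftA]; exact grC_pC (grC_of_deg hx.2 α)⟩
  have hhom : D.H X ⊥ j ≃ₗ[k] (X ⊓ D.deg j).map (pS k n K t) := by
    refine homEquivOfContraction D X j (hS k n K t) (pS k n K t) hP ?_ ?_ ?_ ?_ ?_
    · exact fun x hx => ⟨mem_slice_of_supC K fun α => by
          rw [hS, coefA_liftA]; exact supC_hC (supC_of_slice K hx.1 α),
        deg_of_grC fun α => by
          rw [hS, coefA_liftA]
          refine grC_hC ?_
          rw [show -(j + 1) + 1 = -j by ring]
          exact grC_of_deg hx.2 α⟩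
    · intro x hx
      refine coefA_ext fun α => ?_
      show coefA k n α (delta k (Coef k n) (hS k n K t x) + hS k n K t (delta k (Coef k n) x) +
        pS k n K t x) = _
      rw [map_add, map_add, coefA_delta, hS, coefA_liftA, coefA_liftA, coefA_delta, pS, coefA_liftA]
      exact contractionC (supC_of_slice K hx.1 α)
    · intro x hx
      refine coefA_ext fun α => ?_
      show coefA k n α (pS k n K t (delta k (Coef k n) x)) = _
      rw [pS, coefA_liftA, coefA_delta, map_zero]
      exact pC_dC (supC_of_slice K hx.1 α)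
    · intro x _
      refine coefA_ext fun α => ?_
      show coefA k n α (delta k (Coef k n) (pS k n K t x)) = _
      rw [coefA_delta, pS, coefA_liftA, map_zero]
      exact dC_pC _ _ _
    · intro x _
      refine coefA_ext fun α => ?_
      rw [pS, coefA_liftA, coefA_liftA, pC_pC]
  let Φ : (X ⊓ D.deg j).map (pS k n K t) →ₗ[k] (patJ n K t j → k) :=
    { toFun := fun f α =>
        coefA k n α.1 (f : Cov n → Coef k n) (some (star (c0T n K t α.1) (c1T n α.1)))
      map_add' := fun f g => by funext α; simp
      map_smul' := fun c f => by funext α; simp }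
  have hfix : ∀ f ∈ (X ⊓ D.deg j).map (pS k n K t), ∀ α,
      pC k n (c0T n K t α) (c1T n α) (coefA k n α f) = coefA k n α f := by
    rintro _ ⟨x, -, rfl⟩ α
    rw [pS, coefA_liftA, pC_pC]
  refine hhom.trans (LinearEquiv.ofBijective Φ ⟨?_, ?_⟩)
  · rw [injective_iff_map_eq_zero]
    rintro ⟨f, hf⟩ h0
    refine Subtype.ext (coefA_ext fun α => ?_)
    rw [← hfix f hf α]
    show _ = coefA k n α (0 : Cov n → Coef k n)
    rw [map_zero]
    by_cases h : α ∈ pat n K t ∧ negCount n K t ≠ 0
    · refine ext_cov (by simp [pC]) ?_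
      rw [pC_coef_eq K h.1 h.2, map_zero]
      obtain ⟨x, hx, rfl⟩ := hf
      by_cases hj : j = -((negCount n K t : ℤ) + 1)
      · have := congrFun h0 ⟨α, by rw [patJ, if_pos ⟨h.2, hj⟩]; exact h.1⟩
        simp only [Φ, LinearMap.coe_mk, AddHom.coe_mk, Pi.zero_apply] at this
        rw [this, zero_smul]
      · refine smul_eq_zero_of_left ?_ _
        by_contra hne
        have h2 := grC_of_deg (hP x hx).2 α _ hne
        rw [show cdeg n (some (star (c0T n K t α) (c1T n α))) = 1 + negCount n K t by
          simp only [cdeg, twos_harm K h.1 (harm_star _ _)]] at h2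
        push_cast at h2
        omega
    · exact pC_coef_eq_zero K h _
  · intro g
    let f : Cov n → Coef k n := fun e => ∑ α : patJ n K t j,
      AddMonoidAlgebra.single α.1
        (g α * Option.elim e 0 (fun e => vE k (c0T n K t α.1) (c1T n α.1) e))
    have hcoef : ∀ α e, coefA k n α f e = if hα : α ∈ patJ n K t j then
        g ⟨α, hα⟩ * Option.elim e 0 (fun e => vE k (c0T n K t α) (c1T n α) e) else 0 := by
      intro α e
      simp only [f, coefA, LinearMap.coe_mk, AddHom.coe_mk, AddMonoidAlgebra.coeff_sum,
        Finsupp.finsetSum_apply, AddMonoidAlgebra.coeff_single, Finsupp.single_apply]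
      split_ifs with hα
      · rw [Finset.sum_eq_single ⟨α, hα⟩]
        · simp
        · intro β _ hβ; rw [if_neg]; exact fun e => hβ (Subtype.ext e)
        · simp
      · exact Finset.sum_eq_zero fun β _ => if_neg fun e => hα (by rw [← e]; exact β.2)
    have hpj : ∀ α, α ∈ patJ n K t j →
        (α ∈ pat n K t ∧ negCount n K t ≠ 0) ∧ j = -((negCount n K t : ℤ) + 1) := by
      intro α hα
      unfold patJ at hα
      split_ifs at hα with h
      · exact ⟨⟨hα, h.1⟩, h.2⟩
      · exact absurd hα (Finset.notMem_empty α)
    have hfP : pS k n K t f = f := by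
      refine coefA_ext fun α => ?_
      rw [pS, coefA_liftA]
      by_cases hα : α ∈ patJ n K t j
      · refine ext_cov (by simp [pC, hcoef]) ?_
        rw [pC_coef_eq K (hpj α hα).1.1 (hpj α hα).1.2]
        funext e
        simp [someL, LinearMap.funLeft, hcoef, hα, vE_star]
      · have : coefA k n α f = 0 := funext fun e => by rw [hcoef, dif_neg hα]; rfl
        rw [this, map_zero]
    have hfX : f ∈ X ⊓ D.deg j := by
      refine ⟨mem_slice_of_supC K fun α e he => ?_, deg_of_grC fun α e he => ?_⟩
      · rw [hcoef] at he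
        split_ifs at he with hα
        · cases e with
          | none => simp at he
          | some e =>
              simp only [Option.elim_some, vE, ne_eq, mul_eq_zero, ite_eq_right_iff, one_ne_zero,
                imp_false, not_or, not_not] at he
              intro a
              have h1 := he.2 a
              have h2 := (mem_pat K).1 (hpj α hα).1.1 a
              refine ⟨fun e0 => ?_, fun e1 => ?_⟩
              · by_contra hc
                rw [if_neg (by simp [hc])] at h1
                rw [e0] at h1
                exact absurd h1 (by decide)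
              · by_contra hc
                rw [if_neg (by simp [hc])] at h1
                rw [e1] at h1
                exact absurd h1 (by decide)
        · exact absurd rfl he
      · rw [hcoef] at he
        split_ifs at he with hα
        · cases e with
          | none => simp at he
          | some e =>
              simp only [Option.elim_some, vE, ne_eq, mul_eq_zero, ite_eq_right_iff, one_ne_zero,
                imp_false, not_or, not_not] at he
              have h1 := (hpj α hα).2
              simp only [cdeg, twos_harm K (hpj α hα).1.1 he.2]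
              push_cast
              omega
        · exact absurd rfl he
    refine ⟨⟨f, f, hfX, hfP⟩, funext fun α => ?_⟩
    show coefA k n α.1 f _ = g α
    rw [hcoef, dif_pos α.2]
    simp [vE_star]

theorem slice_finite (t j : ℤ) :
    Module.Finite k ((sliceDiff k n).H (slice k n K t) ⊥ j) :=
  Module.Finite.equiv (sliceHomEquiv k n K t j).symm

theorem slice_betti (t j : ℤ) :
    (sliceDiff k n).betti (slice k n K t) ⊥ j = (patJ n K t j).card := by
  rw [Diff.betti, (sliceHomEquiv k n K t j).finrank_eq, Module.finrank_pi, Fintype.card_coe]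

/-- Where the homology of a slice can be nonzero. -/
theorem slice_subsingleton (t j : ℤ)
    (h : ¬ ∃ p : ℕ, 1 ≤ p ∧ j = -((p : ℤ) + 1) ∧
      (∀ b : Fin n, b.val < p → t + (b.val : ℤ) * K ≤ -1) ∧
      ∀ b : Fin n, p ≤ b.val → 1 ≤ t + (b.val : ℤ) * K) :
    Subsingleton ((sliceDiff k n).H (slice k n K t) ⊥ j) := by
  have hempty : patJ n K t j = ∅ := by
    rw [Finset.eq_empty_iff_forall_notMem]
    intro α hα
    unfold patJ at hα
    split_ifs at hα with hc
    · refine h ⟨negCount n K t, Nat.one_le_iff_ne_zero.2 hc.1, hc.2,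
        fun b hb => (lt_negCount_iff K t b).1 hb, fun b hb => ?_⟩
      have h1 : ¬ t + (b.val : ℤ) * K ≤ -1 := fun hle => by
        have := (lt_negCount_iff K t b).2 hle; omega
      have h2 := (mem_pat K).1 hα b
      simp only [c0T, c1T] at h2
      rw [decide_eq_decide] at h2
      simp only [shift] at h2
      omega
    · exact Finset.notMem_empty α hα
  have : IsEmpty (patJ n K t j) := by rw [hempty]; infer_instance
  exact (sliceHomEquiv k n K t j).toEquiv.subsingleton

/-- The Euler characteristic of a slice. -/
theorem slice_chi (hn : 1 ≤ n) (t : ℤ) :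
    (sliceDiff k n).chi (slice k n K t) ⊥ = if t ≤ 0 then -pFun n K t else 0 := by
  rw [Diff.chi]
  simp only [slice_betti]
  rw [finsum_eq_single _ (-((negCount n K t : ℤ) + 1))]
  · have hsgn : (((-((negCount n K t : ℤ) + 1)).negOnePow : ℤˣ) : ℤ) =
        (-1) ^ (negCount n K t + 1) := by
      rw [Int.negOnePow_neg, show (negCount n K t : ℤ) + 1 = ((negCount n K t + 1 : ℕ) : ℤ) by
        push_cast; ring, Int.negOnePow_def, zpow_natCast, Units.val_pow_eq_pow_val]
      rfl
    rw [hsgn]
    by_cases hp : negCount n K t = 0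
    · rw [patJ, if_neg (by simp [hp])]
      simp only [Finset.card_empty, Nat.cast_zero, mul_zero]
      split_ifs with ht
      · have hprod : pFun n K t = 0 := by
          refine Finset.prod_eq_zero (Finset.mem_univ (⟨0, by omega⟩ : Fin n)) ?_
          have : ¬ t + ((0 : ℕ) : ℤ) * K ≤ -1 := fun hle => by
            have := (lt_negCount_iff K t (⟨0, by omega⟩ : Fin n)).2 hle
            omega
          simp at this ⊢
          omega
        rw [hprod, neg_zero]
      · rfl
    · have hp' : t ≤ 0 := by
        have := (lt_negCount_iff K t (⟨0, by omega⟩ : Fin n)).1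
          (show 0 < negCount n K t by omega)
        simp at this
        omega
      rw [if_pos hp', patJ, if_pos ⟨hp, rfl⟩, card_pat K t, ← mul_assoc, ← pow_add,
        show negCount n K t + 1 + negCount n K t = 2 * negCount n K t + 1 by ring, pow_succ,
        pow_mul]
      norm_num
  · intro j hj
    rw [patJ, if_neg (fun h => hj h.2)]
    simp

end Vale.Agent.P202.Segre
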