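import Vale.Agent.P202.Segre.Action

/-!
# P202: monomial units and acyclicity on the localised components

The monomials `W s` of degree one satisfy `W s * W t = W (s ∩ t) * W (s ∪ t)` and sum to the images
of the variables by cardinality, so a prime containing all those images contains every monomial.
-/

noncomputable section

namespace Vale.Agent.P202.Segre

open Finset

variable (k : Type*) [Field k] (n K : ℕ)

/-- Exponent vector of a set of factors. -/
def ind (s : Finset (Fin n)) : Fin n → ℤ := fun a => if a ∈ s then 1 else 0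

/-- A monomial of the Laurent model. -/
def mono (t : ℤ) (α : Fin n → ℤ) : Lam k n := HahnSeries.single t (AddMonoidAlgebra.single α 1)

/-- The monomials of degree one. -/
def W (s : Finset (Fin n)) : Lam k n := mono k n 1 (ind n s)

/-- The polynomial ring of the monomials of degree one. -/
def polyRing : Subring (Lam k n) :=
  Subring.closure (Set.range (W k n) ∪
    Set.range fun c : k => HahnSeries.C (algebraMap k (Coef k n) c))

variable {k n}

theorem mono_mul (t t' : ℤ) (α α' : Fin n → ℤ) :
    mono k n t α * mono k n t' α' = mono k n (t + t') (α + α') := by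
  simp [mono, AddMonoidAlgebra.single_mul_single]

theorem mono_zero : mono k n 0 0 = 1 := rfl

theorem W_mul_W (s t : Finset (Fin n)) :
    W k n s * W k n t = W k n (s ∩ t) * W k n (s ∪ t) := by
  simp only [W, mono_mul]
  congr 1
  funext a
  simp only [Pi.add_apply, ind, Finset.mem_inter, Finset.mem_union]
  by_cases h1 : a ∈ s <;> by_cases h2 : a ∈ t <;> simp [h1, h2]

theorem segreHom_X_eq_sum (j : Fin (n + 1)) :
    segreHom k n (MvPowerSeries.X j) =
      ∑ s ∈ (univ : Finset (Fin n)).powersetCard j, W k n s := by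
  rw [segreHom_X, esym]
  exact map_sum (AddMonoidHom.mk' (fun c : Coef k n => (HahnSeries.single (1 : ℤ)) c)
    fun a b => HahnSeries.single_add (a := (1 : ℤ)) (r := a) (s := b)) _ _

theorem W_mem (s : Finset (Fin n)) : W k n s ∈ polyRing k n :=
  Subring.subset_closure (Or.inl ⟨s, rfl⟩)

theorem xj_mem (j : Fin (n + 1)) : segreHom k n (MvPowerSeries.X j) ∈ polyRing k n := by
  rw [segreHom_X_eq_sum]; exact Subring.sum_mem _ fun s _ => W_mem s

/-- Any power of a monomial of degree one lies eventually in the ideal of powers of the variables. -/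
theorem W_pow_mem (s : Finset (Fin n)) (N : Fin (n + 1) → ℕ) :
    ∃ (M : ℕ) (r : Fin (n + 1) → Lam k n), (∀ j, r j ∈ polyRing k n) ∧
      W k n s ^ M = ∑ j, r j * segreHom k n (MvPowerSeries.X j) ^ N j := by
  let x : Fin (n + 1) → polyRing k n := fun j => ⟨_, xj_mem j⟩
  let w : Finset (Fin n) → polyRing k n := fun s => ⟨_, W_mem s⟩
  let I : Ideal (polyRing k n) := Ideal.span (Set.range fun j => x j ^ N j)
  have hrad : w s ∈ I.radical := by
    rw [Ideal.radical_eq_sInf, Ideal.mem_sInf]
    rintro q ⟨hIq, hq⟩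
    have hx : ∀ j, x j ∈ q := fun j =>
      hq.mem_of_pow_mem _ (hIq (Ideal.subset_span ⟨j, rfl⟩))
    suffices h : ∀ c (s : Finset (Fin n)), s.card = c → w s ∈ q from h _ s rfl
    intro c
    induction c using Nat.strong_induction_on with
    | _ c ih =>
      intro s hs
      by_contra hns
      have hc : c < n + 1 := by
        have := Finset.card_le_univ s
        simp at this
        omega
      have hsum : x ⟨c, hc⟩ = ∑ t ∈ (univ : Finset (Fin n)).powersetCard c, w t := by
        apply Subtype.ext
        push_cast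
        exact segreHom_X_eq_sum _
      have hothers : ∀ t ∈ ((univ : Finset (Fin n)).powersetCard c).erase s, w t ∈ q := by
        intro t ht
        obtain ⟨hne, ht⟩ := Finset.mem_erase.1 ht
        have htc : t.card = c := (Finset.mem_powersetCard.1 ht).2
        have hlt : (s ∩ t).card < c := by
          rw [← hs]
          refine Finset.card_lt_card (Finset.inter_subset_left.ssubset_of_ne fun e => hne ?_)
          exact (Finset.eq_of_subset_of_card_le (Finset.inter_eq_left.1 e) (by omega)).symm
        have hmul : w s * w t = w (s ∩ t) * w (s ∪ t) := Subtype.ext (W_mul_W s t)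
        refine (hq.mem_or_mem (?_ : w s * w t ∈ q)).resolve_left hns
        rw [hmul]
        exact q.mul_mem_right _ (ih _ hlt _ rfl)
      have := hx ⟨c, hc⟩
      rw [hsum, ← Finset.add_sum_erase _ _
        (Finset.mem_powersetCard.2 ⟨Finset.subset_univ s, hs⟩)] at this
      exact hns ((Submodule.add_mem_iff_left _ (q.sum_mem hothers)).1 this)
  obtain ⟨M, hM⟩ := hrad
  obtain ⟨r, hr⟩ := Ideal.mem_span_range_iff_exists_fun.1 hM
  refine ⟨M, fun j => r j, fun j => (r j).2, ?_⟩
  have := congrArg Subtype.val hr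
  push_cast at this
  exact this.symm

theorem mono_mul_coeff (dt : ℤ) (dα : Fin n → ℤ) (f : Lam k n) (t : ℤ) (α : Fin n → ℤ) :
    ((mono k n dt dα * f).coeff t).coeff α = (f.coeff (t - dt)).coeff (α - dα) := by
  have h1 : (mono k n dt dα * f).coeff t =
      AddMonoidAlgebra.single dα 1 * f.coeff (t - dt) := by
    have := HahnSeries.coeff_single_mul_add (r := (AddMonoidAlgebra.single dα (1 : k) : Coef k n))
      (x := f) (a := t - dt) (b := dt)
    rw [sub_add_cancel] at this
    exact this
  rw [h1, AddMonoidAlgebra.coeff_single_mul_eq_mul_coeff (α - dα) (fun m' _ => by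
    constructor
    · rintro rfl; simp
    · rintro rfl; simp), one_mul]

theorem mono_mul_mem_comp {ε : Cov n} {dt : ℤ} {dα : Fin n → ℤ}
    (h : ∀ t α, allowed n K t α ε → allowed n K (t + dt) (α + dα) ε) {f : Lam k n}
    (hf : f ∈ comp k n K ε) : mono k n dt dα * f ∈ comp k n K ε := fun t α hne => by
  rw [mono_mul_coeff] at hne
  simpa using h _ _ (hf _ _ hne)

theorem polyRing_mul_mem {ε : Cov n} {r : Lam k n} (hr : r ∈ polyRing k n) :
    ∀ f ∈ comp k n K ε, r * f ∈ comp k n K ε := by
  induction hr using Subring.closure_induction with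
  | mem x hx =>
      intro f hf
      rcases hx with ⟨s, rfl⟩ | ⟨c, rfl⟩
      · refine mono_mul_mem_comp K (fun t α hal => ?_) hf
        exact allowed_add (s := 1) hal fun a => by simp only [ind]; split_ifs <;> simp
      · show HahnSeries.C (algebraMap k (Coef k n) c) * f ∈ _
        rw [← segreHom_C, ← smul_def]
        exact Submodule.smul_mem _ _ hf
  | zero => intro f _; rw [zero_mul]; exact Submodule.zero_mem _
  | one => intro f hf; rwa [one_mul]
  | add x y _ _ hx hy => intro f hf; rw [add_mul]; exact Submodule.add_mem _ (hx f hf) (hy f hf)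
  | neg x _ hx => intro f hf; rw [show -x * f = -(x * f) from neg_mul x f]; exact Submodule.neg_mem _ (hx f hf)
  | mul x y _ _ hx hy => intro f hf; rw [mul_assoc]; exact hx _ (hy f hf)

variable (n) in
/-- The inverted monomial of a localised component. -/
def unitSet (ε : Fin n → Fin 3) : Finset (Fin n) := univ.filter fun a => ε a = 0

theorem inv_mul_mem (ε : Fin n → Fin 3) {f : Lam k n} (hf : f ∈ comp k n K (some ε)) :
    mono k n (-1) (-ind n (unitSet n ε)) * f ∈ comp k n K (some ε) := by
  refine mono_mul_mem_comp K ?_ hf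
  intro t α hal a
  have h1 := hal a
  simp only [Pi.add_apply, Pi.neg_apply, ind, unitSet, Finset.mem_filter, Finset.mem_univ,
    true_and]
  refine ⟨fun e => ?_, fun e => ?_⟩
  · rw [if_pos e]; have := h1.1 e; omega
  · rw [if_neg (by rw [e]; decide)]; have := h1.2 e; omega

theorem inv_pow_mul_mem (ε : Fin n → Fin 3) (M : ℕ) {f : Lam k n}
    (hf : f ∈ comp k n K (some ε)) :
    mono k n (-1) (-ind n (unitSet n ε)) ^ M * f ∈ comp k n K (some ε) := by
  induction M with
  | zero => rwa [pow_zero, one_mul]
  | succ M ih => rw [pow_succ', mul_assoc]; exact inv_mul_mem K ε ih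

theorem inv_pow_mul_W_pow (ε : Fin n → Fin 3) (M : ℕ) :
    mono k n (-1) (-ind n (unitSet n ε)) ^ M * W k n (unitSet n ε) ^ M = 1 := by
  rw [← mul_pow, W, mono_mul]
  simp [mono_zero]

/-- A complex whose homology is killed by powers of every variable, through null homotopies, is
exact on a localised component. -/
theorem comp_exact (G : FreeCx (MvPowerSeries (Fin (n + 1)) k)) (ε : Fin n → Fin 3)
    (hnull : ∀ j : Fin (n + 1), ∃ (N : ℕ) (s : Matrix G.ι G.ι (MvPowerSeries (Fin (n + 1)) k)),
      ((MvPowerSeries.X j : MvPowerSeries (Fin (n + 1)) k) ^ N) • (1 : Matrix G.ι G.ι (MvPowerSeries (Fin (n + 1)) k)) =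
        G.mat * s + s * G.mat)
    (f : G.ι → comp k n K (some ε)) (hf : G.dA _ f = 0) :
    ∃ g : G.ι → comp k n K (some ε), G.dA _ g = f := by
  choose N s hs using hnull
  obtain ⟨M, r, hr, hW⟩ := W_pow_mem (k := k) (unitSet n ε) N
  let g0 : Fin (n + 1) → G.ι → comp k n K (some ε) := fun j i => ∑ l, s j i l • f l
  have hg0 : ∀ j, G.dA _ (g0 j) = fun i => (MvPowerSeries.X j : MvPowerSeries (Fin (n + 1)) k) ^ N j • f i := by
    intro j
    funext i
    have h2 : ∀ l, ∑ g, G.mat l g • f g = 0 := fun l => congrFun hf l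
    calc G.dA _ (g0 j) i = ∑ l, (G.mat * s j) i l • f l := by
          simp only [FreeCx.dA_apply, g0, Finset.smul_sum, smul_smul, Matrix.mul_apply,
            Finset.sum_smul]
          rw [Finset.sum_comm]
      _ = ∑ l, (G.mat * s j) i l • f l + ∑ l, (s j * G.mat) i l • f l := by
          have h3 : ∑ l, (s j * G.mat) i l • f l = ∑ p, s j i p • ∑ l, G.mat p l • f l := by
            simp only [Matrix.mul_apply, Finset.sum_smul, Finset.smul_sum, smul_smul]
            rw [Finset.sum_comm]
          rw [h3]
          simp [h2]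
      _ = ∑ l, (((MvPowerSeries.X j : MvPowerSeries (Fin (n + 1)) k) ^ N j) •
            (1 : Matrix G.ι G.ι (MvPowerSeries (Fin (n + 1)) k))) i l • f l := by
          rw [hs j, ← Finset.sum_add_distrib]
          exact Finset.sum_congr rfl fun l _ => by rw [Matrix.add_apply, add_smul]
      _ = _ := by simp [Matrix.one_apply]
  let v : Lam k n := mono k n (-1) (-ind n (unitSet n ε)) ^ M
  let g : G.ι → comp k n K (some ε) := fun i => ∑ j, ⟨v * (r j * (g0 j i : Lam k n)),
    inv_pow_mul_mem K ε M (polyRing_mul_mem K (hr j) _ (g0 j i).2)⟩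
  refine ⟨g, funext fun i => Subtype.ext ?_⟩
  have key : ∀ j, ∑ l, G.mat i l • (g0 j l : Lam k n) =
      segreHom k n (MvPowerSeries.X j) ^ N j * (f i : Lam k n) := by
    intro j
    have := congrArg Subtype.val (congrFun (hg0 j) i)
    rw [FreeCx.dA_apply] at this
    push_cast at this
    rw [this, smul_def, map_pow]
  rw [FreeCx.dA_apply]
  simp only [g, AddSubmonoidClass.coe_finsetSum, SetLike.val_smul, Finset.smul_sum, smul_def]
  rw [Finset.sum_comm]
  have hcomm : ∀ j, ∑ l, segreHom k n (G.mat i l) * (v * (r j * (g0 j l : Lam k n))) =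
      v * (r j * ∑ l, G.mat i l • (g0 j l : Lam k n)) := fun j => by
    simp only [Finset.mul_sum, smul_def]
    exact Finset.sum_congr rfl fun l _ => by ring
  simp only [hcomm, key, ← mul_assoc (r _), ← Finset.mul_sum, ← Finset.sum_mul, ← hW]
  rw [← mul_assoc, inv_pow_mul_W_pow, one_mul]

theorem subsingleton_of_exact {F M : Type*} [CommRing F] [AddCommGroup M] [Module F M]
    (D : Diff F M) (j : ℤ) (h : ∀ f ∈ D.deg j, D.d f = 0 → ∃ g ∈ D.deg (j + 1), D.d g = f) :
    Subsingleton (D.H ⊤ ⊥ j) := by
  refine Submodule.Quotient.subsingleton_iff.2 ?_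
  rw [eq_top_iff]
  rintro ⟨f, ⟨-, hfj⟩, hdf⟩ -
  obtain ⟨g, hg, he⟩ := h f hfj (by simpa using hdf)
  exact Submodule.mem_sup_left ⟨g, ⟨trivial, hg⟩, he⟩

/-- Homology on a localised component vanishes. -/
theorem comp_subsingleton (G : FreeCx (MvPowerSeries (Fin (n + 1)) k)) (ε : Fin n → Fin 3)
    (hnull : ∀ j : Fin (n + 1), ∃ (N : ℕ) (s : Matrix G.ι G.ι (MvPowerSeries (Fin (n + 1)) k)),
      ((MvPowerSeries.X j : MvPowerSeries (Fin (n + 1)) k) ^ N) • (1 : Matrix G.ι G.ι (MvPowerSeries (Fin (n + 1)) k)) =
        G.mat * s + s * G.mat)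
    (j : ℤ) : Subsingleton ((G.diff (comp k n K (some ε)) k).H ⊤ ⊥ j) := by
  classical
  refine subsingleton_of_exact _ j fun f hfj hdf => ?_
  obtain ⟨g, hg⟩ := comp_exact K G ε hnull f hdf
  let g' : G.ι → comp k n K (some ε) := fun i => if (G.pos i : ℤ) = j + 1 then g i else 0
  refine ⟨g', fun i hi => if_neg hi, funext fun h => ?_⟩
  show G.dA _ g' h = f h
  by_cases hh : (G.pos h : ℤ) = j
  · rw [← hg]
    simp only [FreeCx.dA_apply]
    refine Finset.sum_congr rfl fun l _ => ?_
    by_cases hl : (G.pos l : ℤ) = j + 1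
    · simp [g', hl]
    · have : G.mat h l = 0 := by
        by_contra hm
        have := G.mat_pos h l hm
        omega
      simp [this]
  · rw [FreeCx.dA_apply, hfj h hh]
    refine Finset.sum_eq_zero fun l _ => ?_
    by_cases hl : (G.pos l : ℤ) = j + 1
    · have : G.mat h l = 0 := by
        by_contra hm
        have := G.mat_pos h l hm
        omega
      simp [this]
    · simp [g', hl]

end Vale.Agent.P202.Segre
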