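import Vale.Agent.P202.Segre.Units

/-!
# P202: the Segre module is finite over the power series ring
-/

noncomputable section

namespace Vale.Agent.P202.Segre

open Finset

variable {k : Type*} [Field k] {n : ℕ} (K : ℕ)

set_option synthInstance.maxHeartbeats 200000

theorem xImg_prod (d : Fin (n + 1) →₀ ℕ) :
    (d.prod fun j e => xImg k n j ^ e) =
      PowerSeries.C (d.prod fun j e => esym k n j ^ e) * PowerSeries.X ^ d.degree := by
  simp only [xImg, mul_pow, Finsupp.prod, Finset.prod_mul_distrib, map_prod, map_pow,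
    Finset.prod_pow_eq_pow_sum, Finsupp.degree_apply]

/-- The degree `s` coefficient of the substitution only sees the part of degree `s`. -/
theorem toSeries_coeff_congr {f g : MvPowerSeries (Fin (n + 1)) k} {s : ℕ}
    (h : ∀ d : Fin (n + 1) →₀ ℕ, d.degree = s →
      MvPowerSeries.coeff d f = MvPowerSeries.coeff d g) :
    PowerSeries.coeff s (toSeries k n f) = PowerSeries.coeff s (toSeries k n g) := by
  show MvPowerSeries.coeff (Finsupp.single () s)
      (MvPowerSeries.substAlgHom (hasSubst_xImg k n) f) =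
    MvPowerSeries.coeff (Finsupp.single () s) (MvPowerSeries.substAlgHom (hasSubst_xImg k n) g)
  rw [MvPowerSeries.coe_substAlgHom, MvPowerSeries.coeff_subst (hasSubst_xImg k n),
    MvPowerSeries.coeff_subst (hasSubst_xImg k n)]
  refine finsum_congr fun d => ?_
  by_cases hd : d.degree = s
  · rw [h d hd]
  · have : PowerSeries.coeff s (d.prod fun j e => xImg k n j ^ e) = 0 := by
      rw [xImg_prod, PowerSeries.coeff_C_mul, PowerSeries.coeff_X_pow, if_neg (Ne.symm hd), mul_zero]
    show _ • PowerSeries.coeff s _ = _ • PowerSeries.coeff s _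
    rw [this, smul_zero, smul_zero]

theorem segreHom_coeff_congr {f g : MvPowerSeries (Fin (n + 1)) k} {u : ℤ}
    (h : ∀ d : Fin (n + 1) →₀ ℕ, (d.degree : ℤ) = u →
      MvPowerSeries.coeff d f = MvPowerSeries.coeff d g) :
    (segreHom k n f).coeff u = (segreHom k n g).coeff u := by
  rcases lt_or_ge u 0 with hu | hu
  · rw [segreHom_coeff_neg k n f hu, segreHom_coeff_neg k n g hu]
  · obtain ⟨s, rfl⟩ := Int.eq_ofNat_of_zero_le hu
    rw [segreHom_coeff_nat, segreHom_coeff_nat]
    exact toSeries_coeff_congr fun d hd => h d (by exact_mod_cast hd)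

theorem smul_mono_coeff (f : MvPowerSeries (Fin (n + 1)) k) (u : ℤ) (α : Fin n → ℤ) (t : ℤ) :
    (f • mono k n u α).coeff t =
      (segreHom k n f).coeff (t - u) * AddMonoidAlgebra.single α 1 := by
  have h := HahnSeries.coeff_mul_single_add (r := (AddMonoidAlgebra.single α (1 : k) : Coef k n))
    (x := segreHom k n f) (a := t - u) (b := u)
  rw [sub_add_cancel] at h
  exact h

theorem mono_mem_comp {t : ℤ} {α : Fin n → ℤ} (h : allowed n K t α none) :
    mono k n t α ∈ comp k n K none := by
  classical
  intro t' α' hne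
  rw [mono, HahnSeries.coeff_single] at hne
  split_ifs at hne with e
  · subst e
    rw [AddMonoidAlgebra.coeff_single, Finsupp.single_apply] at hne
    split_ifs at hne with e'
    · subst e'; exact h
    · exact absurd rfl hne
  · exact absurd (by simp) hne

variable (k n) in
/-- The ideal of the monomials of degree one. -/
def monIdeal : Ideal (polyRing k n) :=
  Ideal.span (Set.range fun s : Finset (Fin n) => (⟨W k n s, W_mem s⟩ : polyRing k n))

/-- A monomial of high degree is a multiple of `M` monomials of degree one. -/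
theorem exists_factor (M : ℕ) : ∀ (t : ℤ) (α : Fin n → ℤ), (M : ℤ) < t →
    allowed n K t α none → ∃ a : polyRing k n, a ∈ monIdeal k n ^ M ∧ ∃ h ∈ comp k n K none,
      mono k n t α = (a : Lam k n) * h := by
  induction M with
  | zero =>
    intro t α _ hal
    exact ⟨1, by simp, _, mono_mem_comp K hal, by simp⟩
  | succ M ih =>
    intro t α ht hal
    let s : Finset (Fin n) := univ.filter fun a => 1 ≤ α a
    have hal' : allowed n K (t - 1) (α - ind n s) none := by
      intro a
      have h1 := hal a
      simp only [shift] at h1 ⊢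
      simp only [Pi.sub_apply, ind, s, Finset.mem_filter, Finset.mem_univ, true_and]
      have : (0 : ℤ) ≤ (a.val : ℤ) * K := by positivity
      split_ifs <;> omega
    obtain ⟨a, ha, h, hh, he⟩ := ih (t - 1) _ (by omega) hal'
    refine ⟨⟨W k n s, W_mem s⟩ * a, ?_, h, hh, ?_⟩
    · rw [pow_succ']
      exact Ideal.mul_mem_mul (Ideal.subset_span ⟨s, rfl⟩) ha
    · show mono k n t α = W k n s * (a : Lam k n) * h
      rw [mul_assoc, ← he, W, mono_mul]
      congr 1 <;> simp

/-- Monomials of high degree lie in the span of the variables. -/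
theorem exists_high : ∃ T : ℕ, ∀ (t : ℤ) (α : Fin n → ℤ), (T : ℤ) < t → allowed n K t α none →
    ∃ g : Fin (n + 1) → Lam k n, (∀ j, g j ∈ comp k n K none) ∧
      mono k n t α = ∑ j, segreHom k n (MvPowerSeries.X j) * g j := by
  let I : Ideal (polyRing k n) :=
    Ideal.span (Set.range fun j => (⟨_, xj_mem j⟩ : polyRing k n))
  let J : Ideal (polyRing k n) :=
    Ideal.span (Set.range fun s => (⟨W k n s, W_mem s⟩ : polyRing k n))
  have hJ : J ≤ I.radical := by
    rw [Ideal.span_le]
    rintro _ ⟨s, rfl⟩
    obtain ⟨M, r, hr, hM⟩ := W_pow_mem (k := k) s fun _ => 1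
    refine ⟨M, Ideal.mem_span_range_iff_exists_fun.2 ⟨fun j => ⟨r j, hr j⟩, Subtype.ext ?_⟩⟩
    push_cast
    simpa using hM.symm
  obtain ⟨M, hM⟩ := Ideal.exists_pow_le_of_le_radical_of_fg hJ
    (Submodule.fg_span (Set.finite_range _))
  refine ⟨M, fun t α ht hal => ?_⟩
  obtain ⟨a, ha, h, hh, he⟩ := exists_factor (k := k) K M t α ht hal
  obtain ⟨r, hr⟩ := Ideal.mem_span_range_iff_exists_fun.1 (hM ha)
  refine ⟨fun j => (r j : Lam k n) * h, fun j => polyRing_mul_mem K (r j).2 h hh, ?_⟩
  have := congrArg Subtype.val hr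
  push_cast at this
  rw [he, ← this, Finset.sum_mul]
  exact Finset.sum_congr rfl fun j _ => by ring

variable (k)

/-- A homogeneous representation of the coefficient `c` in degree `t` by the monomials in `gens`. -/
def Rep (gens : Finset (ℤ × (Fin n → ℤ))) (t : ℤ) (c : Coef k n) : Prop :=
  ∃ p : ℤ × (Fin n → ℤ) → MvPowerSeries (Fin (n + 1)) k,
    (∀ g d, (d.degree : ℤ) + g.1 ≠ t → MvPowerSeries.coeff d (p g) = 0) ∧
      HahnSeries.single t c = ∑ g ∈ gens, p g • mono k n g.1 g.2

variable {k} {gens : Finset (ℤ × (Fin n → ℤ))}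

theorem Rep.zero (t : ℤ) : Rep k gens t 0 := ⟨0, fun g d _ => by simp, by simp⟩

theorem Rep.add {t : ℤ} {c c' : Coef k n} (h : Rep k gens t c) (h' : Rep k gens t c') :
    Rep k gens t (c + c') := by
  obtain ⟨p, hp, he⟩ := h
  obtain ⟨p', hp', he'⟩ := h'
  refine ⟨p + p', fun g d hd => by simp [hp g d hd, hp' g d hd], ?_⟩
  rw [HahnSeries.single_add, he, he', ← Finset.sum_add_distrib]
  simp [add_smul]

theorem Rep.algebraMap_mul {t : ℤ} {c : Coef k n} (a : k) (h : Rep k gens t c) :
    Rep k gens t (algebraMap k (Coef k n) a * c) := by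
  obtain ⟨p, hp, he⟩ := h
  refine ⟨fun g => MvPowerSeries.C a * p g, fun g d hd => by simp [hp g d hd], ?_⟩
  simp only [mul_smul, ← Finset.smul_sum, ← he]
  rw [smul_def, segreHom_C, HahnSeries.C_apply, HahnSeries.single_mul_single, zero_add]

theorem Rep.esym_mul {t : ℤ} {c : Coef k n} (j : Fin (n + 1)) (h : Rep k gens (t - 1) c) :
    Rep k gens t (esym k n j * c) := by
  classical
  obtain ⟨p, hp, he⟩ := h
  refine ⟨fun g => MvPowerSeries.X j * p g, fun g d hd => ?_, ?_⟩
  · rw [MvPowerSeries.X_def, MvPowerSeries.coeff_monomial_mul]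
    split_ifs with hle
    · rw [hp g, mul_zero]
      have : (d - Finsupp.single j 1).degree + 1 = d.degree := by
        conv_rhs => rw [← tsub_add_cancel_of_le hle]
        rw [map_add, Finsupp.degree_single]
      omega
    · rfl
  · simp only [mul_smul, ← Finset.smul_sum, ← he]
    rw [smul_def, segreHom_X, HahnSeries.single_mul_single]
    congr 2
    omega

variable (k n)

/-- The generating box. -/
def genBox (T : ℕ) : Finset (ℤ × (Fin n → ℤ)) :=
  (Finset.Icc (1 : ℤ) T ×ˢ Fintype.piFinset fun _ : Fin n => Finset.Icc (0 : ℤ) (T + n * K)).filter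
    fun g => ∀ a, 0 ≤ g.2 a ∧ g.2 a ≤ g.1 + shift n K a

variable {k n}

theorem one_le_of_allowed (hn : 0 < n) {t : ℤ} {α : Fin n → ℤ} (h : allowed n K t α none) :
    1 ≤ t := by
  have := h ⟨0, hn⟩
  simp [shift] at this
  omega

theorem mem_genBox (hn : 0 < n) {T : ℕ} {t : ℤ} {α : Fin n → ℤ} (ht : t ≤ T)
    (h : allowed n K t α none) : (t, α) ∈ genBox n K T := by
  refine Finset.mem_filter.2 ⟨Finset.mem_product.2 ⟨Finset.mem_Icc.2
    ⟨one_le_of_allowed K hn h, ht⟩, Fintype.mem_piFinset.2 fun a => Finset.mem_Icc.2 ⟨(h a).1, ?_⟩⟩, h⟩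
  have h1 := (h a).2
  have h2 : (a.val : ℤ) * K ≤ (n : ℤ) * K := by
    exact mul_le_mul_of_nonneg_right (by have := a.isLt; omega) (by omega)
  simp only [shift] at h1
  show α a ≤ _
  omega

theorem rep_single (hn : 0 < n) : ∃ T : ℕ, ∀ (m : ℕ) (t : ℤ), t = m →
    ∀ α : Fin n → ℤ, allowed n K t α none →
      Rep k (genBox n K T) t (AddMonoidAlgebra.single α 1) := by
  classical
  obtain ⟨T, hT⟩ := exists_high (k := k) (n := n) K
  refine ⟨T, fun m => ?_⟩
  induction m with
  | zero => intro t ht α hal; have := one_le_of_allowed K hn hal; omega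
  | succ m ih =>
    intro t ht α hal
    rcases lt_or_ge (T : ℤ) t with hlt | hge
    · obtain ⟨g, hg, he⟩ := hT t α hlt hal
      have hc : (AddMonoidAlgebra.single α 1 : Coef k n) = ∑ j : Fin (n + 1),
          esym k n j * (g j).coeff (t - 1) := by
        have := congrArg (fun f : Lam k n => f.coeff t) he
        simp only [mono, HahnSeries.coeff_single_same, HahnSeries.coeff_sum] at this
        rw [this]
        refine Finset.sum_congr rfl fun j _ => ?_
        have h1 := HahnSeries.coeff_single_mul_add (r := esym k n j) (x := g j) (a := t - 1)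
          (b := 1)
        rw [sub_add_cancel] at h1
        rw [segreHom_X, h1]
      rw [hc]
      refine Finset.sum_induction _ (Rep k (genBox n K T) t) (fun _ _ => Rep.add) (Rep.zero t)
        fun j _ => Rep.esym_mul j ?_
      rw [← AddMonoidAlgebra.sum_coeff_single ((g j).coeff (t - 1))]
      refine Finset.sum_induction _ (Rep k (genBox n K T) (t - 1)) (fun _ _ => Rep.add) (Rep.zero _)
        fun β hβ => ?_
      have := Rep.algebraMap_mul ((g j).coeff (t - 1) |>.coeff β)
        (ih (t - 1) (by omega) β (hg j _ _ (Finsupp.mem_support_iff.1 hβ)))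
      simpa [AddMonoidAlgebra.single_mul_single] using this
    · refine ⟨fun g => if g = (t, α) then 1 else 0, fun g d hd => ?_, ?_⟩
      · show MvPowerSeries.coeff d (if g = (t, α) then 1 else 0) = 0
        split_ifs with e
        · subst e
          rw [MvPowerSeries.coeff_one, if_neg]
          rintro rfl
          simp at hd
        · simp
      · rw [Finset.sum_eq_single_of_mem (t, α) (mem_genBox K hn hge hal)]
        · simp [mono]
        · intro g _ hg; simp [hg]

theorem rep_coeff (hn : 0 < n) : ∃ T : ℕ, ∀ f ∈ comp k n K none, ∀ t,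
    Rep k (genBox n K T) t (f.coeff t) := by
  obtain ⟨T, hT⟩ := rep_single (k := k) K hn
  refine ⟨T, fun f hf t => ?_⟩
  rw [← AddMonoidAlgebra.sum_coeff_single (f.coeff t)]
  refine Finset.sum_induction _ (Rep k (genBox n K T) t) (fun _ _ => Rep.add) (Rep.zero t)
    fun β hβ => ?_
  have hal := hf _ _ (Finsupp.mem_support_iff.1 hβ)
  have h1 := one_le_of_allowed K hn hal
  have := Rep.algebraMap_mul ((f.coeff t).coeff β) (hT t.toNat t (by omega) β hal)
  simpa [AddMonoidAlgebra.single_mul_single] using this

/-- The Segre module is spanned by finitely many monomials. -/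
theorem comp_none_fg (hn : 0 < n) : (comp k n K none).FG := by
  classical
  obtain ⟨T, hT⟩ := rep_coeff (k := k) K hn
  refine ⟨(genBox n K T).image fun g => mono k n g.1 g.2, le_antisymm ?_ ?_⟩
  · rw [Submodule.span_le]
    intro x hx
    obtain ⟨g, hg, rfl⟩ := Finset.mem_image.1 hx
    exact mono_mem_comp K (Finset.mem_filter.1 hg).2
  · intro f hf
    choose p hp he using hT f hf
    let q : ℤ × (Fin n → ℤ) → MvPowerSeries (Fin (n + 1)) k :=
      fun g d => MvPowerSeries.coeff d (p ((d.degree : ℤ) + g.1) g)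
    have hf' : f = ∑ g ∈ genBox n K T, q g • mono k n g.1 g.2 := by
      refine HahnSeries.ext (funext fun t => ?_)
      have h1 := congrArg (fun x : Lam k n => x.coeff t) (he t)
      simp only [HahnSeries.coeff_single_same, HahnSeries.coeff_sum] at h1
      rw [h1, HahnSeries.coeff_sum]
      refine Finset.sum_congr rfl fun g _ => ?_
      rw [smul_mono_coeff, smul_mono_coeff]
      congr 1
      refine segreHom_coeff_congr fun d hd => ?_
      show _ = MvPowerSeries.coeff d (p ((d.degree : ℤ) + g.1) g)
      rw [show (d.degree : ℤ) + g.1 = t by omega]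
    rw [hf']
    exact Submodule.sum_mem _ fun g hg => Submodule.smul_mem _ _
      (Submodule.subset_span (Finset.mem_image_of_mem _ hg))

/-- The Segre module is finite. -/
theorem comp_none_finite (hn : 0 < n) :
    Module.Finite (MvPowerSeries (Fin (n + 1)) k) (comp k n K none) :=
  Module.Finite.iff_fg.2 (comp_none_fg K hn)

end Vale.Agent.P202.Segre
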