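import Vale.Agent.P202.Base

/-!
# P202: the Segre module and its Laurent model

`n` factors `k[u_a, v_a]`, variables `X_0, ..., X_n`. A monomial of total degree `t` is recorded by
`α : Fin n → ℤ`, the exponents of the `u_a`; the exponent of `v_a` is `t + (a * K - 1) - α a`.
-/

noncomputable section

namespace Vale.Agent.P202.Segre

open Finset

variable (k : Type*) [Field k] (n K : ℕ)

/-- Coefficients in one total degree: Laurent polynomials in `n` variables. -/
abbrev Coef : Type _ := AddMonoidAlgebra k (Fin n → ℤ)

/-- The ambient ring. -/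
abbrev Lam : Type _ := HahnSeries ℤ (Coef k n)

/-- The elementary symmetric element: the coefficient of `T^j` in `∏ a, (z_a T + 1)`. -/
def esym (j : ℕ) : Coef k n :=
  ∑ s ∈ (univ : Finset (Fin n)).powersetCard j,
    AddMonoidAlgebra.single (fun a => if a ∈ s then (1 : ℤ) else 0) (1 : k)

/-- Images of the variables, as power series in the degree variable. -/
def xImg (j : Fin (n + 1)) : PowerSeries (Coef k n) :=
  PowerSeries.C (esym k n j) * PowerSeries.X

theorem hasSubst_xImg : MvPowerSeries.HasSubst (xImg k n) := by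
  refine MvPowerSeries.hasSubst_of_constantCoeff_zero fun j => ?_
  simp [xImg, PowerSeries.X, PowerSeries.C]

/-- Substitution into power series in the degree variable. -/
def toSeries : MvPowerSeries (Fin (n + 1)) k →+* PowerSeries (Coef k n) :=
  (MvPowerSeries.substAlgHom (hasSubst_xImg k n)).toRingHom

/-- The ring homomorphism to the Laurent model. -/
def segreHom : MvPowerSeries (Fin (n + 1)) k →+* Lam k n :=
  (HahnSeries.ofPowerSeries ℤ (Coef k n)).comp (toSeries k n)

instance algebra : Algebra (MvPowerSeries (Fin (n + 1)) k) (Lam k n) :=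
  (segreHom k n).toAlgebra

/-- The shift of factor `a`. -/
def shift (a : Fin n) : ℤ := (a.val : ℤ) * K - 1

/-- Čech index: `none` is the augmentation; otherwise each factor has `u` inverted (`0`),
`v` inverted (`1`), or both (`2`). -/
abbrev Cov : Type := Option (Fin n → Fin 3)

/-- Number of factors with both variables inverted. -/
def twos (ε : Fin n → Fin 3) : ℕ := (univ.filter fun a => ε a = 2).card

/-- Cohomological position. -/
def cdeg : Cov n → ℕ
  | none => 0
  | some ε => 1 + twos n ε

/-- Exponent conditions of a component. -/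
def allowed (t : ℤ) (α : Fin n → ℤ) : Cov n → Prop
  | none => ∀ a, 0 ≤ α a ∧ α a ≤ t + shift n K a
  | some ε => ∀ a, (ε a = 0 → α a ≤ t + shift n K a) ∧ (ε a = 1 → 0 ≤ α a)

/-- Component carrier. -/
def compSet (ε : Cov n) : Set (Lam k n) :=
  {f | ∀ (t : ℤ) (α : Fin n → ℤ), (f.coeff t).coeff α ≠ 0 → allowed n K t α ε}

/-- The polynomial giving the Euler characteristic in degree `t`. -/
def pFun (t : ℤ) : ℤ := ∏ a : Fin n, (t + (a.val : ℤ) * K)

/-- Minus the sum of `pFun` over `(-mK, 0]`. -/
def sFun (m : ℕ) : ℤ := - ∑ t ∈ Finset.Ioc (-((m * K : ℕ) : ℤ)) 0, pFun n K t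

/-- The main sum `∑_{t = 1}^{K} pFun t`. -/
def mainSum : ℤ := ∑ t ∈ Finset.Ioc (0 : ℤ) (K : ℤ), pFun n K t

end Vale.Agent.P202.Segre
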