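import Vale.Agent.P202.Segre.Delta

/-!
# P202: the scalar Cech complexes of one monomial, with an explicit contraction

Factors are peeled off one at a time, so the differential, the contraction and the projection to
the harmonic part are defined by recursion on the number of factors.
-/

noncomputable section

namespace Vale.Agent.P202.Segre

open Finset

variable {k : Type*} [Field k] {n : ℕ}

/-- Functions on the charts of `n` factors. -/
abbrev Chart (n : ℕ) : Type := Fin n → Fin 3

variable (k) in
/-- The part of a function with first chart index `i`. -/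
def sliceL (n : ℕ) (i : Fin 3) : (Chart (n + 1) → k) →ₗ[k] (Chart n → k) :=
  LinearMap.funLeft k k (fun e => (Fin.cons i e : Chart (n + 1)))

/-- Assemble a function from its three parts. -/
def glueL {M : Type*} [AddCommGroup M] [Module k M] (A B C : M →ₗ[k] (Chart n → k)) :
    M →ₗ[k] (Chart (n + 1) → k) :=
  LinearMap.pi fun e => (LinearMap.proj (Fin.tail e)).comp (![A, B, C] (e 0))

theorem glueL_slice {M : Type*} [AddCommGroup M] [Module k M] (A B C : M →ₗ[k] (Chart n → k))
    (x : M) :
    sliceL k n 0 (glueL A B C x) = A x ∧ sliceL k n 1 (glueL A B C x) = B x ∧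
      sliceL k n 2 (glueL A B C x) = C x := by
  refine ⟨?_, ?_, ?_⟩ <;>
  · funext e
    simp [glueL, sliceL, LinearMap.funLeft]

@[simp] theorem slice0_glueL {M : Type*} [AddCommGroup M] [Module k M]
    (A B C : M →ₗ[k] (Chart n → k)) (x : M) : sliceL k n 0 (glueL A B C x) = A x :=
  (glueL_slice A B C x).1

@[simp] theorem slice1_glueL {M : Type*} [AddCommGroup M] [Module k M]
    (A B C : M →ₗ[k] (Chart n → k)) (x : M) : sliceL k n 1 (glueL A B C x) = B x :=
  (glueL_slice A B C x).2.1

@[simp] theorem slice2_glueL {M : Type*} [AddCommGroup M] [Module k M]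
    (A B C : M →ₗ[k] (Chart n → k)) (x : M) : sliceL k n 2 (glueL A B C x) = C x :=
  (glueL_slice A B C x).2.2

theorem ext_slice {f g : Chart (n + 1) → k} (h : ∀ i, sliceL k n i f = sliceL k n i g) : f = g := by
  funext e
  have := congrFun (h (e 0)) (Fin.tail e)
  simpa [sliceL, LinearMap.funLeft, Fin.cons_self_tail] using this

theorem ext_slice' {f g : Chart (n + 1) → k} (h0 : sliceL k n 0 f = sliceL k n 0 g)
    (h1 : sliceL k n 1 f = sliceL k n 1 g) (h2 : sliceL k n 2 f = sliceL k n 2 g) : f = g := by
  refine ext_slice fun i => ?_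
  fin_cases i
  exacts [h0, h1, h2]

variable (k) in
/-- The differential: a factor moves from one inverted variable to both. -/
def dE : ∀ n, (Chart n → k) →ₗ[k] (Chart n → k)
  | 0 => 0
  | n + 1 => glueL ((dE n).comp (sliceL k n 0)) ((dE n).comp (sliceL k n 1))
      (sliceL k n 0 - sliceL k n 1 - (dE n).comp (sliceL k n 2))

theorem dE_dE : ∀ n (f : Chart n → k), dE k n (dE k n f) = 0
  | 0, f => by simp [dE]
  | n + 1, f => by
      refine ext_slice' ?_ ?_ ?_ <;> simp [dE, dE_dE n, map_sub]

variable (k) in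
/-- The contraction; `c0`, `c1` record which single inversions are allowed. -/
def hE : ∀ n, (Fin n → Bool) → (Fin n → Bool) → ((Chart n → k) →ₗ[k] (Chart n → k))
  | 0, _, _ => 0
  | n + 1, c0, c1 =>
      match c0 0, c1 0 with
      | true, true => glueL (sliceL k n 2 + (hE n (Fin.tail c0) (Fin.tail c1)).comp (sliceL k n 1))
          ((hE n (Fin.tail c0) (Fin.tail c1)).comp (sliceL k n 1)) 0
      | true, false => glueL (sliceL k n 2) 0 0
      | false, true => glueL 0 (-sliceL k n 2) 0
      | false, false => glueL 0 0 (-(hE n (Fin.tail c0) (Fin.tail c1)).comp (sliceL k n 2))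

variable (k) in
/-- The projection to the harmonic part. -/
def pE : ∀ n, (Fin n → Bool) → (Fin n → Bool) → ((Chart n → k) →ₗ[k] (Chart n → k))
  | 0, _, _ => LinearMap.id
  | n + 1, c0, c1 =>
      match c0 0, c1 0 with
      | true, true => glueL ((pE n (Fin.tail c0) (Fin.tail c1)).comp (sliceL k n 1))
          ((pE n (Fin.tail c0) (Fin.tail c1)).comp (sliceL k n 1)) 0
      | true, false => 0
      | false, true => 0
      | false, false => glueL 0 0 ((pE n (Fin.tail c0) (Fin.tail c1)).comp (sliceL k n 2))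

/-- A chart is allowed. -/
def okE (c0 c1 : Fin n → Bool) (e : Chart n) : Prop :=
  ∀ a, (e a = 0 → c0 a = true) ∧ (e a = 1 → c1 a = true)

/-- Functions supported on allowed charts. -/
def SupE (c0 c1 : Fin n → Bool) (f : Chart n → k) : Prop := ∀ e, f e ≠ 0 → okE c0 c1 e

theorem SupE.slice {c0 c1 : Fin (n + 1) → Bool} {f : Chart (n + 1) → k} (h : SupE c0 c1 f)
    (i : Fin 3) : SupE (Fin.tail c0) (Fin.tail c1) (sliceL k n i f) := fun e he a => by
  have := h _ he a.succ
  simpa [Fin.tail] using this

theorem SupE.slice0 {c0 c1 : Fin (n + 1) → Bool} {f : Chart (n + 1) → k} (h : SupE c0 c1 f)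
    (hc : c0 0 = false) : sliceL k n 0 f = 0 := by
  funext e
  by_contra he
  have h1 := (h _ he 0).1 (by simp)
  rw [hc] at h1
  exact Bool.false_ne_true h1

theorem SupE.slice1 {c0 c1 : Fin (n + 1) → Bool} {f : Chart (n + 1) → k} (h : SupE c0 c1 f)
    (hc : c1 0 = false) : sliceL k n 1 f = 0 := by
  funext e
  by_contra he
  have h1 := (h _ he 0).2 (by simp)
  rw [hc] at h1
  exact Bool.false_ne_true h1

theorem supE_of_slices {c0 c1 : Fin (n + 1) → Bool} {f : Chart (n + 1) → k}
    (h : ∀ i, SupE (Fin.tail c0) (Fin.tail c1) (sliceL k n i f))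
    (h0 : c0 0 = false → sliceL k n 0 f = 0) (h1 : c1 0 = false → sliceL k n 1 f = 0) :
    SupE c0 c1 f := by
  intro e he a
  have he' : sliceL k n (e 0) f (Fin.tail e) ≠ 0 := by
    simpa [sliceL, LinearMap.funLeft, Fin.cons_self_tail] using he
  refine Fin.cases ⟨fun e0 => ?_, fun e1 => ?_⟩ (fun a => ?_) a
  · by_contra hc
    rw [e0, h0 (by simpa using hc)] at he'
    exact he' rfl
  · by_contra hc
    rw [e1, h1 (by simpa using hc)] at he'
    exact he' rfl
  · exact h (e 0) _ he' a

theorem SupE.add {c0 c1 : Fin n → Bool} {f g : Chart n → k} (hf : SupE c0 c1 f)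
    (hg : SupE c0 c1 g) : SupE c0 c1 (f + g) := fun e he => by
  by_cases h : f e = 0
  · exact hg e fun h' => he (by simp [h, h'])
  · exact hf e h

theorem SupE.zero (c0 c1 : Fin n → Bool) : SupE c0 c1 (0 : Chart n → k) := fun _ h => absurd rfl h

theorem SupE.neg {c0 c1 : Fin n → Bool} {f : Chart n → k} (hf : SupE c0 c1 f) :
    SupE c0 c1 (-f) := fun e he => hf e fun h => he (by simp [h])

theorem SupE.sub {c0 c1 : Fin n → Bool} {f g : Chart n → k} (hf : SupE c0 c1 f)
    (hg : SupE c0 c1 g) : SupE c0 c1 (f - g) := sub_eq_add_neg f g ▸ hf.add hg.neg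

theorem supE_dE : ∀ n (c0 c1 : Fin n → Bool) (f : Chart n → k), SupE c0 c1 f →
    SupE c0 c1 (dE k n f)
  | 0, _, _, _, _ => fun _ _ => fun a => a.elim0
  | n + 1, c0, c1, f, hf => by
      have hs := fun i => supE_dE n _ _ _ (hf.slice i)
      refine supE_of_slices (fun i => ?_) (fun hc => ?_) fun hc => ?_
      · fin_cases i
        · simpa [dE] using hs 0
        · simpa [dE] using hs 1
        · simpa [dE] using ((hf.slice 0).sub (hf.slice 1)).sub (hs 2)
      · simp [dE, hf.slice0 hc]
      · simp [dE, hf.slice1 hc]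

theorem supE_hE : ∀ n (c0 c1 : Fin n → Bool) (f : Chart n → k), SupE c0 c1 f →
    SupE c0 c1 (hE k n c0 c1 f)
  | 0, _, _, _, _ => fun _ _ => fun a => a.elim0
  | n + 1, c0, c1, f, hf => by
      have hs := fun i => supE_hE n _ _ _ (hf.slice i)
      have h2 := hf.slice 2
      refine supE_of_slices (fun i => ?_) (fun hc => ?_) fun hc => ?_
      · rcases Bool.eq_false_or_eq_true (c0 0) with e0 | e0 <;>
          rcases Bool.eq_false_or_eq_true (c1 0) with e1 | e1 <;> fin_cases i <;>
          simp [hE, e0, e1, SupE.zero, SupE.add, SupE.neg, h2, hs]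
      · rcases Bool.eq_false_or_eq_true (c1 0) with e1 | e1 <;> simp [hE, hc, e1]
      · rcases Bool.eq_false_or_eq_true (c0 0) with e0 | e0 <;> simp [hE, hc, e0]

theorem supE_pE : ∀ n (c0 c1 : Fin n → Bool) (f : Chart n → k), SupE c0 c1 f →
    SupE c0 c1 (pE k n c0 c1 f)
  | 0, _, _, _, _ => fun _ _ => fun a => a.elim0
  | n + 1, c0, c1, f, hf => by
      have hs := fun i => supE_pE n _ _ _ (hf.slice i)
      refine supE_of_slices (fun i => ?_) (fun hc => ?_) fun hc => ?_
      · rcases Bool.eq_false_or_eq_true (c0 0) with e0 | e0 <;>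
          rcases Bool.eq_false_or_eq_true (c1 0) with e1 | e1 <;> fin_cases i <;>
          simp [pE, e0, e1, SupE.zero, hs]
      · rcases Bool.eq_false_or_eq_true (c1 0) with e1 | e1 <;> simp [pE, hc, e1]
      · rcases Bool.eq_false_or_eq_true (c0 0) with e0 | e0 <;> simp [pE, hc, e0]

/-- The contraction identity. -/
theorem contraction : ∀ n (c0 c1 : Fin n → Bool) (f : Chart n → k), SupE c0 c1 f →
    dE k n (hE k n c0 c1 f) + hE k n c0 c1 (dE k n f) + pE k n c0 c1 f = f
  | 0, _, _, _, _ => by simp [dE, hE, pE]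
  | n + 1, c0, c1, f, hf => by
      have hr := fun i => contraction n _ _ _ (hf.slice i)
      rcases Bool.eq_false_or_eq_true (c0 0) with e0 | e0 <;>
        rcases Bool.eq_false_or_eq_true (c1 0) with e1 | e1
      · refine ext_slice' ?_ ?_ ?_ <;>
          simp only [dE, hE, pE, e0, e1, map_add, map_sub, map_zero, LinearMap.comp_apply,
            slice0_glueL, slice1_glueL, slice2_glueL, LinearMap.add_apply, LinearMap.sub_apply,
            LinearMap.zero_apply]
        · linear_combination (norm := abel) hr 1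
        · linear_combination (norm := abel) hr 1
        · abel
      · refine ext_slice' ?_ ?_ ?_ <;>
          simp [dE, hE, pE, e0, e1, hf.slice1 e1]
      · refine ext_slice' ?_ ?_ ?_ <;>
          simp [dE, hE, pE, e0, e1, hf.slice0 e0, map_neg]
      · refine ext_slice' ?_ ?_ ?_ <;>
          simp only [dE, hE, pE, e0, e1, map_add, map_sub, map_zero, map_neg, LinearMap.comp_apply,
            slice0_glueL, slice1_glueL, slice2_glueL, LinearMap.add_apply, LinearMap.sub_apply,
            LinearMap.zero_apply, LinearMap.neg_apply, hf.slice0 e0, hf.slice1 e1]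
        · abel
        · abel
        · linear_combination (norm := abel) hr 2

theorem pE_dE : ∀ n (c0 c1 : Fin n → Bool) (f : Chart n → k), SupE c0 c1 f →
    pE k n c0 c1 (dE k n f) = 0
  | 0, _, _, _, _ => by simp [dE]
  | n + 1, c0, c1, f, hf => by
      have hr := fun i => pE_dE n _ _ _ (hf.slice i)
      rcases Bool.eq_false_or_eq_true (c0 0) with e0 | e0 <;>
        rcases Bool.eq_false_or_eq_true (c1 0) with e1 | e1 <;> refine ext_slice' ?_ ?_ ?_ <;>
        simp [dE, pE, e0, e1, hr, hf.slice0, hf.slice1, map_sub]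

theorem dE_pE : ∀ n (c0 c1 : Fin n → Bool) (f : Chart n → k),
    dE k n (pE k n c0 c1 f) = 0
  | 0, _, _, _ => by simp [dE]
  | n + 1, c0, c1, f => by
      have hr := fun g => dE_pE n (Fin.tail c0) (Fin.tail c1) g
      rcases Bool.eq_false_or_eq_true (c0 0) with e0 | e0 <;>
        rcases Bool.eq_false_or_eq_true (c1 0) with e1 | e1 <;> refine ext_slice' ?_ ?_ ?_ <;>
        simp [dE, pE, e0, e1, hr]

theorem pE_pE : ∀ n (c0 c1 : Fin n → Bool) (f : Chart n → k),
    pE k n c0 c1 (pE k n c0 c1 f) = pE k n c0 c1 f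
  | 0, _, _, _ => by simp [pE]
  | n + 1, c0, c1, f => by
      have hr := fun g => pE_pE n (Fin.tail c0) (Fin.tail c1) g
      rcases Bool.eq_false_or_eq_true (c0 0) with e0 | e0 <;>
        rcases Bool.eq_false_or_eq_true (c1 0) with e1 | e1 <;> refine ext_slice' ?_ ?_ ?_ <;>
        simp [pE, e0, e1, hr]

theorem hE_pE : ∀ n (c0 c1 : Fin n → Bool) (f : Chart n → k),
    hE k n c0 c1 (pE k n c0 c1 f) = 0
  | 0, _, _, _ => by simp [hE]
  | n + 1, c0, c1, f => by
      have hr := fun g => hE_pE n (Fin.tail c0) (Fin.tail c1) g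
      rcases Bool.eq_false_or_eq_true (c0 0) with e0 | e0 <;>
        rcases Bool.eq_false_or_eq_true (c1 0) with e1 | e1 <;> refine ext_slice' ?_ ?_ ?_ <;>
        simp [hE, pE, e0, e1, hr]

/-! ### Grading -/

/-- Functions concentrated on charts with `a` doubly inverted factors. -/
def GrE (a : ℤ) (f : Chart n → k) : Prop := ∀ e, f e ≠ 0 → (twos n e : ℤ) = a

theorem twos_cons (i : Fin 3) (e : Chart n) :
    twos (n + 1) (Fin.cons i e) = (if i = 2 then 1 else 0) + twos n e := by
  simp only [twos, Finset.card_filter, Fin.sum_univ_succ, Fin.cons_zero, Fin.cons_succ]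

theorem GrE.slice {a : ℤ} {f : Chart (n + 1) → k} (h : GrE a f) (i : Fin 3) :
    GrE (a - if i = 2 then 1 else 0) (sliceL k n i f) := fun e he => by
  have := h _ he
  rw [twos_cons] at this
  push_cast at this
  split_ifs at this ⊢ <;> omega

theorem grE_of_slices {a : ℤ} {f : Chart (n + 1) → k} (h0 : GrE a (sliceL k n 0 f))
    (h1 : GrE a (sliceL k n 1 f)) (h2 : GrE (a - 1) (sliceL k n 2 f)) : GrE a f := by
  intro e he
  have he' : sliceL k n (e 0) f (Fin.tail e) ≠ 0 := by
    simpa [sliceL, LinearMap.funLeft, Fin.cons_self_tail] using he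
  rw [← Fin.cons_self_tail e, twos_cons]
  match hi : e 0 with
  | 0 => rw [hi] at he'; simpa using h0 _ he'
  | 1 => rw [hi] at he'; simpa using h1 _ he'
  | 2 =>
      rw [hi] at he'
      have := h2 _ he'
      simp only [if_true, Nat.cast_add, Nat.cast_one]
      omega

theorem GrE.add {a : ℤ} {f g : Chart n → k} (hf : GrE a f) (hg : GrE a g) : GrE a (f + g) :=
  fun e he => by
    by_cases h : f e = 0
    · exact hg e fun h' => he (by simp [h, h'])
    · exact hf e h

theorem GrE.zero (a : ℤ) : GrE a (0 : Chart n → k) := fun _ h => absurd rfl h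

theorem GrE.neg {a : ℤ} {f : Chart n → k} (hf : GrE a f) : GrE a (-f) :=
  fun e he => hf e fun h => he (by simp [h])

theorem GrE.sub {a : ℤ} {f g : Chart n → k} (hf : GrE a f) (hg : GrE a g) : GrE a (f - g) :=
  sub_eq_add_neg f g ▸ hf.add hg.neg

theorem GrE.slices {a : ℤ} {f : Chart (n + 1) → k} (h : GrE a f) :
    GrE a (sliceL k n 0 f) ∧ GrE a (sliceL k n 1 f) ∧ GrE (a - 1) (sliceL k n 2 f) := by
  refine ⟨?_, ?_, ?_⟩
  · simpa using h.slice 0
  · simpa using h.slice 1
  · simpa using h.slice 2

theorem grE_dE : ∀ n (a : ℤ) (f : Chart n → k), GrE a f → GrE (a + 1) (dE k n f)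
  | 0, _, _, _ => by simp [dE, GrE]
  | n + 1, a, f, hf => by
      obtain ⟨h0, h1, h2⟩ := hf.slices
      have r2 := grE_dE n _ _ h2
      refine grE_of_slices (by simpa [dE] using grE_dE n _ _ h0)
        (by simpa [dE] using grE_dE n _ _ h1) ?_
      rw [add_sub_cancel_right]
      rw [sub_add_cancel] at r2
      simpa [dE] using (h0.sub h1).sub r2

theorem grE_hE : ∀ n (c0 c1 : Fin n → Bool) (a : ℤ) (f : Chart n → k), GrE (a + 1) f →
    GrE a (hE k n c0 c1 f)
  | 0, _, _, _, _, _ => by simp [hE, GrE]
  | n + 1, c0, c1, a, f, hf => by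
      obtain ⟨-, h1, h2⟩ := hf.slices
      rw [add_sub_cancel_right] at h2
      have r1 := grE_hE n (Fin.tail c0) (Fin.tail c1) a _ h1
      have r2 := grE_hE n (Fin.tail c0) (Fin.tail c1) (a - 1) _
        (by rwa [sub_add_cancel] : GrE (a - 1 + 1) (sliceL k n 2 f))
      rcases Bool.eq_false_or_eq_true (c0 0) with e0 | e0 <;>
        rcases Bool.eq_false_or_eq_true (c1 0) with e1 | e1 <;> refine grE_of_slices ?_ ?_ ?_ <;>
        simp [hE, e0, e1, GrE.zero, GrE.add, GrE.neg, h2, r1, r2]

theorem grE_pE : ∀ n (c0 c1 : Fin n → Bool) (a : ℤ) (f : Chart n → k), GrE a f →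
    GrE a (pE k n c0 c1 f)
  | 0, _, _, _, _, hf => by simpa [pE] using hf
  | n + 1, c0, c1, a, f, hf => by
      obtain ⟨-, h1, h2⟩ := hf.slices
      have r1 := grE_pE n (Fin.tail c0) (Fin.tail c1) _ _ h1
      have r2 := grE_pE n (Fin.tail c0) (Fin.tail c1) _ _ h2
      rcases Bool.eq_false_or_eq_true (c0 0) with e0 | e0 <;>
        rcases Bool.eq_false_or_eq_true (c1 0) with e1 | e1 <;> refine grE_of_slices ?_ ?_ ?_ <;>
        simp [pE, e0, e1, GrE.zero, r1, r2]

/-! ### The harmonic vector -/

/-- The distinguished chart. -/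
def star (c0 c1 : Fin n → Bool) : Chart n := fun a => if c0 a && c1 a then 1 else 2

/-- Charts in the support of the harmonic vector. -/
def harm (c0 c1 : Fin n → Bool) (e : Chart n) : Prop :=
  ∀ a, if c0 a && c1 a then e a ≠ 2 else e a = 2

instance (c0 c1 : Fin n → Bool) (e : Chart n) : Decidable (harm c0 c1 e) := by
  unfold harm; infer_instance

variable (k) in
/-- The harmonic vector. -/
def vE (c0 c1 : Fin n → Bool) : Chart n → k := fun e => if harm c0 c1 e then 1 else 0

theorem pE_eq : ∀ n (c0 c1 : Fin n → Bool), (∀ a, c0 a = c1 a) → ∀ f : Chart n → k,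
    pE k n c0 c1 f = f (star c0 c1) • vE k c0 c1
  | 0, c0, c1, _, f => by
      funext e
      have h1 : harm c0 c1 e := fun a => a.elim0
      simp [pE, vE, h1, show star c0 c1 = e from funext fun a => a.elim0]
  | n + 1, c0, c1, hc, f => by
      have hr := fun g => pE_eq n (Fin.tail c0) (Fin.tail c1) (fun a => hc a.succ) g
      have hstar : star c0 c1 =
          Fin.cons (if c0 0 && c1 0 then 1 else 2) (star (Fin.tail c0) (Fin.tail c1)) :=
        (Fin.cons_self_tail (star c0 c1)).symm
      have hv : ∀ i, sliceL k n i (vE k c0 c1) =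
          if (if c0 0 && c1 0 then i ≠ 2 else i = 2) then vE k (Fin.tail c0) (Fin.tail c1)
          else 0 := by
        intro i
        funext e
        have h1 : harm c0 c1 (Fin.cons i e) ↔
            (if c0 0 && c1 0 then i ≠ 2 else i = 2) ∧ harm (Fin.tail c0) (Fin.tail c1) e := by
          simp only [harm, Fin.forall_fin_succ, Fin.cons_zero, Fin.cons_succ, Fin.tail]
          rfl
        show vE k c0 c1 (Fin.cons i e) = _
        unfold vE
        simp only [h1]
        split_ifs <;> simp_all
      have hs : sliceL k n (if c0 0 && c1 0 then 1 else 2) f (star (Fin.tail c0) (Fin.tail c1)) =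
          f (star c0 c1) := by rw [hstar]; rfl
      rcases Bool.eq_false_or_eq_true (c0 0) with e0 | e0
      all_goals
        have e1 := (hc 0).symm.trans e0
        simp only [e0, e1, Bool.and_self, if_true, if_false, Bool.false_eq_true] at hv hs
        refine ext_slice' ?_ ?_ ?_ <;> simp [pE, e0, e1, hr, hv, hs]

theorem pE_eq_zero : ∀ n (c0 c1 : Fin n → Bool), (∃ a, c0 a ≠ c1 a) → ∀ f : Chart n → k,
    pE k n c0 c1 f = 0
  | 0, _, _, ⟨a, _⟩, _ => a.elim0
  | n + 1, c0, c1, ⟨a, ha⟩, f => by
      induction a using Fin.cases with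
      | zero =>
          rcases Bool.eq_false_or_eq_true (c0 0) with e0 | e0 <;>
            rcases Bool.eq_false_or_eq_true (c1 0) with e1 | e1 <;>
            simp_all [pE]
      | succ a =>
          have hr := fun g => pE_eq_zero n (Fin.tail c0) (Fin.tail c1) ⟨a, ha⟩ g
          rcases Bool.eq_false_or_eq_true (c0 0) with e0 | e0 <;>
            rcases Bool.eq_false_or_eq_true (c1 0) with e1 | e1 <;> refine ext_slice' ?_ ?_ ?_ <;>
            simp [pE, e0, e1, hr]

/-! ### The augmented complex -/

variable (k) in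
/-- The vector of charts without doubly inverted factors. -/
def iota (n : ℕ) : Chart n → k := vE k (fun _ => true) fun _ => true

variable (k) in
/-- The part over the charts. -/
def someL (n : ℕ) : (Cov n → k) →ₗ[k] (Chart n → k) := LinearMap.funLeft k k some

/-- Assemble a function on `Cov n`. -/
def optL {M : Type*} [AddCommGroup M] [Module k M] (A : M →ₗ[k] k) (B : M →ₗ[k] (Chart n → k)) :
    M →ₗ[k] (Cov n → k) :=
  LinearMap.pi fun o => o.elim A fun e => (LinearMap.proj e).comp B

@[simp] theorem optL_none {M : Type*} [AddCommGroup M] [Module k M] (A : M →ₗ[k] k)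
    (B : M →ₗ[k] (Chart n → k)) (x : M) : optL A B x none = A x := rfl

@[simp] theorem someL_optL {M : Type*} [AddCommGroup M] [Module k M] (A : M →ₗ[k] k)
    (B : M →ₗ[k] (Chart n → k)) (x : M) : someL k n (optL A B x) = B x := rfl

theorem ext_cov {f g : Cov n → k} (h0 : f none = g none) (h : someL k n f = someL k n g) :
    f = g := by
  funext o
  cases o with
  | none => exact h0
  | some e => exact congrFun h e

variable (k) in
/-- The augmented differential. -/
def dC (n : ℕ) : (Cov n → k) →ₗ[k] (Cov n → k) :=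
  optL 0 ((LinearMap.proj none).smulRight (iota k n) + (dE k n).comp (someL k n))

variable (k) in
/-- The augmented contraction. -/
def hC (n : ℕ) (c0 c1 : Fin n → Bool) : (Cov n → k) →ₗ[k] (Cov n → k) :=
  optL (if (∀ a, c0 a = true ∧ c1 a = true) then
      (LinearMap.proj (fun _ => (1 : Fin 3))).comp (someL k n) else 0)
    ((hE k n c0 c1).comp (someL k n))

variable (k) in
/-- The augmented projection. -/
def pC (n : ℕ) (c0 c1 : Fin n → Bool) : (Cov n → k) →ₗ[k] (Cov n → k) :=
  optL 0 (if (∀ a, c0 a = true ∧ c1 a = true) then 0 else (pE k n c0 c1).comp (someL k n))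

/-- An index of the augmented complex is allowed. -/
def okC (c0 c1 : Fin n → Bool) : Cov n → Prop
  | none => ∀ a, c0 a = true ∧ c1 a = true
  | some e => okE c0 c1 e

/-- Functions supported on allowed indices. -/
def SupC (c0 c1 : Fin n → Bool) (f : Cov n → k) : Prop := ∀ o, f o ≠ 0 → okC c0 c1 o

/-- Functions concentrated in cohomological position `a`. -/
def GrC (a : ℤ) (f : Cov n → k) : Prop := ∀ o, f o ≠ 0 → (cdeg n o : ℤ) = a

theorem SupC.part {c0 c1 : Fin n → Bool} {f : Cov n → k} (h : SupC c0 c1 f) :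
    SupE c0 c1 (someL k n f) := fun e he => h (some e) he

theorem GrC.part {a : ℤ} {f : Cov n → k} (h : GrC a f) : GrE (a - 1) (someL k n f) := fun e he => by
  have := h (Option.some e) he
  simp only [cdeg] at this
  push_cast at this
  omega

theorem pE_iota (n : ℕ) : pE k n (fun _ => true) (fun _ => true) (iota k n) = iota k n := by
  rw [pE_eq n _ _ (fun _ => rfl)]
  simp [iota, vE, star, harm]

theorem dE_iota (n : ℕ) : dE k n (iota k n) = 0 := by rw [← pE_iota, dE_pE]

theorem grE_iota (n : ℕ) : GrE 0 (iota k n) := fun e he => by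
  simp only [iota, vE, ne_eq, ite_eq_right_iff, one_ne_zero, imp_false, not_not] at he
  simp only [Nat.cast_eq_zero, twos, Finset.card_eq_zero, Finset.filter_eq_empty_iff]
  intro a _
  simpa using he a

theorem supE_iota {c0 c1 : Fin n → Bool} (h : ∀ a, c0 a = true ∧ c1 a = true) :
    SupE c0 c1 (iota k n) := fun _ _ a => ⟨fun _ => (h a).1, fun _ => (h a).2⟩

theorem dC_dC (f : Cov n → k) : dC k n (dC k n f) = 0 := by
  refine ext_cov ?_ ?_ <;> simp [dC, dE_dE, dE_iota]

theorem supC_dC {c0 c1 : Fin n → Bool} {f : Cov n → k} (h : SupC c0 c1 f) :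
    SupC c0 c1 (dC k n f) := by
  intro o ho
  cases o with
  | none => simp [dC] at ho
  | some e =>
      refine (?_ : SupE c0 c1 (someL k n (dC k n f))) e ho
      simp only [dC, someL_optL, LinearMap.add_apply, LinearMap.smulRight_apply,
        LinearMap.proj_apply, LinearMap.comp_apply]
      refine SupE.add ?_ (supE_dE n _ _ _ h.part)
      by_cases h0 : f none = 0
      · simp [h0, SupE.zero]
      · exact fun e he => supE_iota (k := k) (h none h0) e fun h' => he (by simp [h'])

theorem supC_hC {c0 c1 : Fin n → Bool} {f : Cov n → k} (h : SupC c0 c1 f) :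
    SupC c0 c1 (hC k n c0 c1 f) := by
  intro o ho
  cases o with
  | none =>
      by_contra hc
      simp [hC, show ¬ ∀ a, c0 a = true ∧ c1 a = true from hc] at ho
  | some e => exact supE_hE n _ _ _ h.part e ho

theorem supC_pC {c0 c1 : Fin n → Bool} {f : Cov n → k} (h : SupC c0 c1 f) :
    SupC c0 c1 (pC k n c0 c1 f) := by
  intro o ho
  cases o with
  | none => simp [pC] at ho
  | some e =>
      by_cases hb : ∀ a, c0 a = true ∧ c1 a = true
      · exact fun a => ⟨fun _ => (hb a).1, fun _ => (hb a).2⟩
      · refine supE_pE n _ _ _ h.part e ?_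
        simpa [pC, hb, optL] using ho

theorem contractionC {c0 c1 : Fin n → Bool} {f : Cov n → k} (h : SupC c0 c1 f) :
    dC k n (hC k n c0 c1 f) + hC k n c0 c1 (dC k n f) + pC k n c0 c1 f = f := by
  have hr := contraction n c0 c1 _ h.part
  by_cases hb : ∀ a, c0 a = true ∧ c1 a = true
  · obtain ⟨rfl, rfl⟩ : c0 = (fun _ => true) ∧ c1 = (fun _ => true) :=
      ⟨funext fun a => (hb a).1, funext fun a => (hb a).2⟩
    have hp := pE_eq (k := k) n (fun _ => true) (fun _ => true) (fun _ => rfl) (someL k n f)
    have hh : hE k n (fun _ => true) (fun _ => true) (iota k n) = 0 := by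
      rw [← pE_iota, hE_pE]
    have hd : dE k n (someL k n f) (fun _ => 1) = 0 := by
      have := congrFun (pE_dE n _ _ _ h.part) (fun _ => (1 : Fin 3))
      rw [pE_eq n _ _ (fun _ => rfl)] at this
      rw [show star (fun _ : Fin n => true) (fun _ => true) = fun _ => (1 : Fin 3) from
        funext fun a => by simp [star]] at this
      simpa [vE, harm] using this
    refine ext_cov ?_ ?_
    · simp [dC, hC, pC, hd, iota, vE, harm]
    · simp only [dC, hC, pC, if_pos hb, map_add, someL_optL, optL_none, LinearMap.add_apply,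
        LinearMap.smulRight_apply, LinearMap.proj_apply, LinearMap.comp_apply, map_smul, hh,
        smul_zero, LinearMap.zero_apply]
      rw [hp] at hr
      have e : star (fun _ : Fin n => true) (fun _ => true) = fun _ => (1 : Fin 3) := by
        funext a; simp [star]
      rw [e] at hr
      refine Eq.trans ?_ hr
      simp only [iota, and_self, implies_true, if_true, LinearMap.comp_apply,
        LinearMap.proj_apply, LinearMap.zero_apply, add_zero]
      abel
  · have h0 : f none = 0 := by
      by_contra h0; exact hb (h none h0)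
    refine ext_cov ?_ ?_
    · simp [dC, hC, pC, hb, h0]
    · simp only [dC, hC, pC, if_neg hb, map_add, someL_optL, optL_none, LinearMap.add_apply,
        LinearMap.smulRight_apply, LinearMap.proj_apply, LinearMap.comp_apply, map_smul,
        LinearMap.zero_apply, h0, zero_smul, smul_zero, zero_add, map_zero]
      exact hr

theorem pC_dC {c0 c1 : Fin n → Bool} {f : Cov n → k} (h : SupC c0 c1 f) :
    pC k n c0 c1 (dC k n f) = 0 := by
  refine ext_cov (by simp [pC]) ?_
  by_cases hb : ∀ a, c0 a = true ∧ c1 a = true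
  · simp [pC, hb]
  · have h0 : f none = 0 := by
      by_contra h0; exact hb (h none h0)
    simp [pC, dC, hb, h0, pE_dE n c0 c1 _ h.part]

theorem dC_pC (c0 c1 : Fin n → Bool) (f : Cov n → k) : dC k n (pC k n c0 c1 f) = 0 := by
  refine ext_cov (by simp [dC]) ?_
  by_cases hb : ∀ a, c0 a = true ∧ c1 a = true <;> simp [pC, dC, hb, dE_pE]

theorem pC_pC (c0 c1 : Fin n → Bool) (f : Cov n → k) :
    pC k n c0 c1 (pC k n c0 c1 f) = pC k n c0 c1 f := by
  refine ext_cov (by simp [pC]) ?_
  by_cases hb : ∀ a, c0 a = true ∧ c1 a = true <;> simp [pC, hb, pE_pE]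

theorem grC_of_parts {a : ℤ} {f : Cov n → k} (h0 : a ≠ 0 → f none = 0)
    (h : GrE (a - 1) (someL k n f)) : GrC a f := by
  intro o ho
  cases o with
  | none =>
      by_contra hne
      exact ho (h0 fun e => hne (by simp [cdeg, e]))
  | some e =>
      have := h e ho
      simp only [cdeg]
      push_cast
      omega

theorem grC_dC {a : ℤ} {f : Cov n → k} (h : GrC a f) : GrC (a + 1) (dC k n f) := by
  refine grC_of_parts (fun _ => by simp [dC]) ?_
  simp only [dC, someL_optL, LinearMap.add_apply, LinearMap.smulRight_apply,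
    LinearMap.proj_apply, LinearMap.comp_apply, add_sub_cancel_right]
  refine GrE.add ?_ ?_
  · by_cases h0 : f none = 0
    · simp [h0, GrE.zero]
    · have := h none h0
      simp only [cdeg, Nat.cast_zero] at this
      subst this
      exact fun e he => grE_iota (k := k) n e fun h' => he (by simp [h'])
  · simpa using grE_dE n _ _ h.part

theorem grC_hC {c0 c1 : Fin n → Bool} {a : ℤ} {f : Cov n → k} (h : GrC (a + 1) f) :
    GrC a (hC k n c0 c1 f) := by
  refine grC_of_parts (fun ha => ?_) ?_
  · by_cases hb : ∀ a, c0 a = true ∧ c1 a = true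
    · simp only [hC, optL_none, if_pos hb, LinearMap.comp_apply, LinearMap.proj_apply]
      by_contra h1
      have h2 := h.part _ h1
      simp [twos] at h2
      omega
    · simp [hC, hb]
  · simp only [hC, someL_optL, LinearMap.comp_apply]
    refine grE_hE n _ _ _ _ ?_
    have := h.part
    simpa using this

theorem grC_pC {c0 c1 : Fin n → Bool} {a : ℤ} {f : Cov n → k} (h : GrC a f) :
    GrC a (pC k n c0 c1 f) := by
  refine grC_of_parts (fun _ => by simp [pC]) ?_
  by_cases hb : ∀ a, c0 a = true ∧ c1 a = true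
  · simp [pC, hb, GrE.zero]
  · simpa [pC, hb] using grE_pE n c0 c1 _ _ h.part

end Vale.Agent.P202.Segre
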